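import Mathlib
import Crest.Prelude.Def_BoxFlow
import Crest.Agent.Lib.RatPrimrec
import Crest.Agent.R126.Step

-- ▼ part R126/Defs
section

set_option autoImplicit false
open scoped ContDiff
open Crest.AnalysisR.BoxFlow

namespace Crest.Agent.R126

/-- A field admissible for the statement. -/
structure Good (U : Field) : Prop where
  smooth : ContDiff ℝ ∞ U
  compact : HasCompactSupport U
  eff : Effective U
  time : ∀ p : ℝ × (Fin 3 → ℝ), p.1 ∉ Set.Icc (1 / 4 : ℝ) (3 / 4) → U p = 0
  div : ∀ p : ℝ × (Fin 3 → ℝ), spaceDiv U p = 0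

/-- A configuration: centre and half-widths of each of the `n` boxes. -/
abbrev Cfg (n : ℕ) : Type := Fin n → (Fin 3 → ℚ) × (Fin 3 → ℚ)

/-- all half-widths are positive. -/
def Cfg.Pos {n : ℕ} (c : Cfg n) : Prop := ∀ i j, 0 < (c i).2 j

/-- boxes pairwise disjoint. -/
def Cfg.Disj {n : ℕ} (c : Cfg n) : Prop :=
  Pairwise fun i i' => Disjoint (box (c i).1 (c i).2) (box (c i').1 (c i').2)

/-- The relation realised by the time-one flow of a good field. -/
def Realizes {n : ℕ} (c d : Cfg n) : Prop :=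
  ∃ (U : Field) (Φ : ℝ → (Fin 3 → ℝ) → (Fin 3 → ℝ)), Good U ∧ IsFlow U Φ ∧
    ∀ i : Fin n, ∃ O : Set (Fin 3 → ℝ), IsOpen O ∧ box (c i).1 (c i).2 ⊆ O ∧
      ∀ x ∈ O, Φ 1 x = fun j => ((d i).1 j : ℝ) +
        (((d i).2 j / (c i).2 j : ℚ) : ℝ) * (x j - ((c i).1 j : ℝ))

end Crest.Agent.R126
end

-- ▼ part R126/StepComp
section

set_option autoImplicit false
open scoped ContDiff

namespace Crest.Agent.R126

/-! ### list sums -/

theorem sum_map_flatMap {α β : Type*} (l : List α) (f : α → List β) (g : β → ℝ) :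
    ((l.flatMap f).map g).sum = (l.map fun a => ((f a).map g).sum).sum := by
  induction l with
  | nil => simp
  | cons a l ih => simp [List.flatMap_cons, ih]

theorem sum_map_range (M : ℕ) (g : ℕ → ℝ) :
    ((List.range M).map g).sum = ∑ m ∈ Finset.range M, g m := by
  induction M with
  | zero => simp
  | succ n ih => rw [List.range_succ, Finset.sum_range_succ]; simp [ih]

theorem sum_map_le {α : Type*} (l : List α) (f g : α → ℝ) (h : ∀ a, f a ≤ g a) :
    (l.map f).sum ≤ (l.map g).sum := by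
  induction l with
  | nil => simp
  | cons a l ih => simpa using add_le_add (h a) ih

theorem sum_map_mul_left {α : Type*} (l : List α) (c : ℝ) (f : α → ℝ) :
    (l.map fun a => c * f a).sum = c * (l.map f).sum := by
  induction l with
  | nil => simp
  | cons a l ih => simp [ih, mul_add]

/-! ### approximating `stp` -/

/-- sample points of the `k`-fold Riemann iteration with mesh `1/M`. -/
def pts (M : ℕ) (q : ℚ) : ℕ → List ℚ
  | 0 => [q]
  | k + 1 => (pts M q k).flatMap fun y => (List.range M).map fun m : ℕ => 2 * y - (m : ℚ) / (M : ℚ)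

/-- rational approximation of `stp q` (with mesh `1/(N+1)` and `N` iterations). -/
def apx (q : ℚ) (N : ℕ) : ℚ :=
  (((pts (N + 1) q N).filter fun y => 0 ≤ y).length : ℚ) / ((N + 1 : ℕ) : ℚ) ^ N

theorem filter_length_cast (l : List ℚ) :
    (((l.filter fun y => 0 ≤ y).length : ℕ) : ℝ) = (l.map fun y : ℚ => if 0 ≤ y then (1 : ℝ) else 0).sum := by
  induction l with
  | nil => simp
  | cons a l ih =>
    by_cases h : 0 ≤ a
    · simp [h, ← ih]; ring
    · simp [h, ← ih]

theorem pts_upper (M : ℕ) (hM : 0 < M) (q : ℚ) (k : ℕ) :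
    (M : ℝ) ^ k * stp (q : ℝ) ≤ ((pts M q k).map fun y : ℚ => stp (y : ℝ)).sum := by
  have hM' : (0 : ℝ) < M := by exact_mod_cast hM
  induction k with
  | zero => simp [pts]
  | succ k ih =>
    rw [pts, sum_map_flatMap]
    have h1 : ∀ y : ℚ, (M : ℝ) * stp (y : ℝ) ≤
        (((List.range M).map fun m : ℕ => 2 * y - (m : ℚ) / (M : ℚ)).map fun y : ℚ => stp (y : ℝ)).sum := by
      intro y
      rw [List.map_map, sum_map_range]
      have := stp_le_riemann M hM (y : ℝ)
      rw [le_div_iff₀ hM'] at this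
      refine le_trans (by linarith [mul_comm (M : ℝ) (stp (y : ℝ))]) (le_trans this (le_of_eq ?_))
      refine Finset.sum_congr rfl fun m _ => ?_
      simp
    refine le_trans ?_ (sum_map_le _ _ _ h1)
    rw [sum_map_mul_left, pow_succ]
    calc (M : ℝ) ^ k * M * stp q = M * (M ^ k * stp q) := by ring
      _ ≤ _ := mul_le_mul_of_nonneg_left ih hM'.le

/-- the shift after `k` steps. -/
noncomputable def shf (M : ℕ) (s : ℝ) : ℕ → ℝ
  | 0 => s
  | k + 1 => 2 * shf M s k - 1 / M

theorem shf_eq (M : ℕ) (s : ℝ) (k : ℕ) : shf M s k = 2 ^ k * (s - 1 / M) + 1 / M := by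
  induction k with
  | zero => simp [shf]
  | succ k ih => rw [shf, ih, pow_succ]; ring

theorem pts_lower (M : ℕ) (hM : 0 < M) (q : ℚ) (s : ℝ) (k : ℕ) :
    ((pts M q k).map fun y : ℚ => stp ((y : ℝ) + shf M s k)).sum ≤ (M : ℝ) ^ k * stp ((q : ℝ) + s) := by
  have hM' : (0 : ℝ) < M := by exact_mod_cast hM
  induction k with
  | zero => simp [pts, shf]
  | succ k ih =>
    rw [pts, sum_map_flatMap]
    have h1 : ∀ y : ℚ, (((List.range M).map fun m : ℕ => 2 * y - (m : ℚ) / (M : ℚ)).map
          fun y : ℚ => stp ((y : ℝ) + shf M s (k + 1))).sum ≤ (M : ℝ) * stp ((y : ℝ) + shf M s k) := by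
      intro y
      rw [List.map_map, sum_map_range]
      have := riemann_le_stp M hM ((y : ℝ) + shf M s k)
      rw [div_le_iff₀ hM'] at this
      refine le_trans (le_of_eq ?_) (le_trans this (by linarith [mul_comm (M : ℝ) (stp ((y : ℝ) + shf M s k))]))
      refine Finset.sum_congr rfl fun m _ => ?_
      simp only [Function.comp, shf]
      push_cast
      congr 1
      field_simp
      ring
    refine le_trans (sum_map_le _ _ _ h1) ?_
    rw [sum_map_mul_left, pow_succ]
    calc (M : ℝ) * _ ≤ M * (M ^ k * stp (q + s)) := mul_le_mul_of_nonneg_left ih hM'.le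
      _ = _ := by ring

/-- `pts (N+1) q N` has `(N+1)^N` entries; sandwich `stp x ≤ apx ≤ stp (x + 2^{-N} + 1/(N+1))`. -/
theorem abs_stp_sub_apx (q : ℚ) (N : ℕ) : |stp (q : ℝ) - (apx q N : ℝ)| ≤ 4 / ((N : ℝ) + 1) := by
  have hM : 0 < N + 1 := Nat.succ_pos N
  have hM' : (0 : ℝ) < ((N + 1 : ℕ) : ℝ) := by exact_mod_cast hM
  have hMN : (0 : ℝ) < ((N + 1 : ℕ) : ℝ) ^ N := pow_pos hM' N
  have hcast : (apx q N : ℝ) = ((pts (N + 1) q N).map fun y : ℚ => if 0 ≤ y then (1 : ℝ) else 0).sum /
      ((N + 1 : ℕ) : ℝ) ^ N := by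
    rw [apx, ← filter_length_cast]; push_cast; rfl
  have hup : stp (q : ℝ) ≤ apx q N := by
    rw [hcast, le_div_iff₀ hMN, mul_comm]
    refine le_trans (pts_upper (N + 1) hM q N) (sum_map_le _ _ _ fun y => ?_)
    split_ifs with h
    · exact stp_le_one _
    · exact le_of_eq (stp_of_nonpos (by exact_mod_cast (not_le.mp h).le))
  set s : ℝ := 1 / ((N + 1 : ℕ) : ℝ) + (1 - 1 / ((N + 1 : ℕ) : ℝ)) / 2 ^ N with hs
  have hlow : (apx q N : ℝ) ≤ stp ((q : ℝ) + s) := by
    rw [hcast, div_le_iff₀ hMN, mul_comm]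
    refine le_trans (sum_map_le _ _ _ fun y => ?_) (pts_lower (N + 1) hM q s N)
    have h1 : shf (N + 1) s N = 1 := by
      rw [shf_eq, hs]; field_simp; ring
    rw [h1]
    split_ifs with h
    · refine le_of_eq (stp_of_one_le ?_).symm
      have : (0 : ℝ) ≤ (y : ℝ) := by exact_mod_cast h
      linarith
    · exact stp_nonneg _
  have hpow : (((N + 1 : ℕ)) : ℝ) ≤ 2 ^ N := by
    have : N + 1 ≤ 2 ^ N := Nat.lt_two_pow_self
    exact_mod_cast this
  have hs0 : 0 ≤ s := by
    have : 1 / ((N + 1 : ℕ) : ℝ) ≤ 1 := by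
      rw [div_le_one hM']; exact_mod_cast hM
    have h2 : 0 ≤ 1 / ((N + 1 : ℕ) : ℝ) := by positivity
    have h3 : 0 ≤ (1 - 1 / ((N + 1 : ℕ) : ℝ)) / 2 ^ N := div_nonneg (by linarith) (by positivity)
    linarith
  have hs1 : s ≤ 2 / ((N + 1 : ℕ) : ℝ) := by
    have h3 : (1 - 1 / ((N + 1 : ℕ) : ℝ)) / 2 ^ N ≤ 1 / ((N + 1 : ℕ) : ℝ) := by
      have h2 : 0 ≤ 1 / ((N + 1 : ℕ) : ℝ) := by positivity
      exact div_le_div₀ zero_le_one (by linarith) hM' hpow
    have : (2 : ℝ) / ((N + 1 : ℕ) : ℝ) = 1 / ((N + 1 : ℕ) : ℝ) + 1 / ((N + 1 : ℕ) : ℝ) := by ring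
    rw [hs, this]
    linarith
  have hl := stp_lip ((q : ℝ) + s) q
  have hl2 : |stp ((q : ℝ) + s) - stp q| ≤ 2 * s := by
    simpa [abs_of_nonneg hs0] using hl
  have hl3 := (abs_le.mp hl2).2
  rw [abs_le]
  have h4 : (4 : ℝ) / ((N : ℝ) + 1) = 2 * (2 / ((N + 1 : ℕ) : ℝ)) := by push_cast; ring
  have h5 : 0 ≤ (4 : ℝ) / ((N : ℝ) + 1) := by positivity
  constructor
  · linarith
  · linarith

open Crest.Agent.Lib.RatPrimrec in
theorem primrec_pts : Primrec (fun a : (ℕ × ℚ) × ℕ => pts a.1.1 a.1.2 a.2) := by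
  have h : Primrec (fun a : (ℕ × ℚ) × ℕ => (Nat.rec [a.1.2]
      (fun _ (l : List ℚ) => l.flatMap fun y => (List.range a.1.1).map fun m : ℕ => 2 * y - (m : ℚ) / (a.1.1 : ℚ))
      a.2 : List ℚ)) := by
    refine Primrec.nat_rec' (f := fun a : (ℕ × ℚ) × ℕ => a.2) (g := fun a : (ℕ × ℚ) × ℕ => [a.1.2])
      (h := fun (a : (ℕ × ℚ) × ℕ) (p : ℕ × List ℚ) =>
        p.2.flatMap fun y => (List.range a.1.1).map fun m : ℕ => 2 * y - (m : ℚ) / (a.1.1 : ℚ)) ?_ ?_ ?_
    · exact Primrec.snd
    · exact Primrec.list_cons.comp (Primrec.snd.comp Primrec.fst) (Primrec.const [])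
    · refine Primrec.list_flatMap (Primrec.snd.comp Primrec.snd) ?_
      refine Primrec.list_map (f := fun z : (((ℕ × ℚ) × ℕ) × ℕ × List ℚ) × ℚ => List.range z.1.1.1.1)
        (g := fun z m => 2 * z.2 - (m : ℚ) / (z.1.1.1.1 : ℚ)) ?_ ?_
      · exact Primrec.list_range.comp (Primrec.fst.comp (Primrec.fst.comp (Primrec.fst.comp Primrec.fst)))
      · refine rat_sub.comp ?_ ?_
        · exact rat_mul.comp (Primrec.const 2) (Primrec.snd.comp Primrec.fst)
        · refine rat_div.comp (rat_natCast.comp Primrec.snd) (rat_natCast.comp ?_)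
          exact Primrec.fst.comp (Primrec.fst.comp (Primrec.fst.comp (Primrec.fst.comp Primrec.fst)))
  refine h.of_eq ?_
  rintro ⟨⟨M, q⟩, k⟩
  induction k with
  | zero => rfl
  | succ k ih =>
    simp only [pts] at ih ⊢
    rw [← ih]

open Crest.Agent.Lib.RatPrimrec in
theorem primrec_apx : Primrec₂ apx := by
  unfold Primrec₂ apx
  refine rat_div.comp ?_ ?_
  · refine rat_natCast.comp (Primrec.list_length.comp ?_)
    have h1 : PrimrecPred (fun y : ℚ => (0 : ℚ) ≤ y) := rat_le.comp (Primrec.const 0) Primrec.id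
    refine (Primrec.listFilter h1).comp ?_
    exact primrec_pts.comp (Primrec.pair (Primrec.pair (Primrec.succ.comp Primrec.snd) Primrec.fst) Primrec.snd)
  · exact rat_pow.comp (rat_natCast.comp (Primrec.succ.comp Primrec.snd)) Primrec.snd

/-! ### derivatives -/

/-- coefficient/shift list of the `k`-th derivative: `stp^{(k)}(x) = ∑ (c,b) ∈ dl k, c * stp (2^k x + b)`. -/
def dl : ℕ → List (ℚ × ℚ)
  | 0 => [(1, 0)]
  | k + 1 => (dl k).flatMap fun p => [(2 ^ (k + 1) * p.1, 2 * p.2), (-(2 ^ (k + 1) * p.1), 2 * p.2 - 1)]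

theorem hasDerivAt_list_sum {α : Type*} (l : List α) (f f' : α → ℝ → ℝ) (x : ℝ)
    (h : ∀ a, HasDerivAt (f a) (f' a x) x) :
    HasDerivAt (fun x => (l.map fun a => f a x).sum) (l.map fun a => f' a x).sum x := by
  induction l with
  | nil => simpa using hasDerivAt_const x (0 : ℝ)
  | cons a l ih =>
    simp only [List.map_cons, List.sum_cons]
    exact (h a).add ih

theorem iteratedDeriv_stp (k : ℕ) (x : ℝ) :
    iteratedDeriv k stp x = ((dl k).map fun p : ℚ × ℚ => (p.1 : ℝ) * stp (2 ^ k * x + (p.2 : ℝ))).sum := by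
  induction k generalizing x with
  | zero => simp [dl]
  | succ k ih =>
    rw [iteratedDeriv_succ]
    have h1 : iteratedDeriv k stp = fun x =>
        ((dl k).map fun p : ℚ × ℚ => (p.1 : ℝ) * stp (2 ^ k * x + (p.2 : ℝ))).sum := funext ih
    rw [h1]
    have h2 := hasDerivAt_list_sum (dl k) (fun p x => (p.1 : ℝ) * stp (2 ^ k * x + (p.2 : ℝ)))
      (fun p x => (p.1 : ℝ) * ((2 * (stp (2 * (2 ^ k * x + (p.2 : ℝ))) -
        stp (2 * (2 ^ k * x + (p.2 : ℝ)) - 1))) * 2 ^ k)) x (by
        intro p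
        refine HasDerivAt.const_mul _ ?_
        have h3 : HasDerivAt (fun x : ℝ => 2 ^ k * x + (p.2 : ℝ)) (2 ^ k) x := by
          simpa using ((hasDerivAt_id x).const_mul (2 ^ k : ℝ)).add_const (p.2 : ℝ)
        exact (stp_hasDerivAt (2 ^ k * x + (p.2 : ℝ))).comp x h3)
    rw [h2.deriv, dl, sum_map_flatMap]
    congr 1
    refine List.map_congr_left fun p _ => ?_
    simp only [List.map_cons, List.map_nil, List.sum_cons, List.sum_nil]
    push_cast
    have e1 : (2 : ℝ) ^ (k + 1) * x + 2 * (p.2 : ℝ) = 2 * (2 ^ k * x + (p.2 : ℝ)) := by ring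
    have e2 : (2 : ℝ) ^ (k + 1) * x + (2 * (p.2 : ℝ) - 1) = 2 * (2 ^ k * x + (p.2 : ℝ)) - 1 := by ring
    rw [e1, e2]
    ring

open Crest.Agent.Lib.RatPrimrec in
theorem primrec_dl : Primrec dl := by
  have h : Primrec (fun k : ℕ => (Nat.rec [((1 : ℚ), (0 : ℚ))]
      (fun k (l : List (ℚ × ℚ)) => l.flatMap fun p =>
        [(2 ^ (k + 1) * p.1, 2 * p.2), (-(2 ^ (k + 1) * p.1), 2 * p.2 - 1)]) k : List (ℚ × ℚ))) := by
    refine Primrec.nat_rec' (f := fun k : ℕ => k) (g := fun _ : ℕ => [((1 : ℚ), (0 : ℚ))])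
      (h := fun (_ : ℕ) (p : ℕ × List (ℚ × ℚ)) => p.2.flatMap fun z : ℚ × ℚ =>
        [(2 ^ (p.1 + 1) * z.1, 2 * z.2), (-(2 ^ (p.1 + 1) * z.1), 2 * z.2 - 1)]) Primrec.id (Primrec.const _) ?_
    refine Primrec.list_flatMap (Primrec.snd.comp Primrec.snd) ?_
    have hk : Primrec (fun a : (ℕ × ℕ × List (ℚ × ℚ)) × ℚ × ℚ => a.1.2.1) :=
      Primrec.fst.comp (Primrec.snd.comp Primrec.fst)
    have h1 : Primrec (fun a : (ℕ × ℕ × List (ℚ × ℚ)) × ℚ × ℚ => (2 : ℚ) ^ (a.1.2.1 + 1) * a.2.1) :=
      rat_mul.comp (rat_pow.comp (Primrec.const 2) (Primrec.succ.comp hk)) (Primrec.fst.comp Primrec.snd)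
    have h2 : Primrec (fun a : (ℕ × ℕ × List (ℚ × ℚ)) × ℚ × ℚ => 2 * a.2.2) :=
      rat_mul.comp (Primrec.const 2) (Primrec.snd.comp Primrec.snd)
    exact Primrec.list_cons.comp (Primrec.pair h1 h2)
      (Primrec.list_cons.comp (Primrec.pair (rat_neg.comp h1) (rat_sub.comp h2 (Primrec.const 1)))
        (Primrec.const []))
  refine h.of_eq ?_
  intro k
  induction k with
  | zero => rfl
  | succ k ih =>
    simp only [dl] at ih ⊢
    rw [← ih]

/-- total coefficient mass -/
theorem sum_abs_dl (k : ℕ) : ((dl k).map fun p : ℚ × ℚ => |(p.1 : ℝ)|).sum ≤ ((2 ^ (k * (k + 3)) : ℕ) : ℝ) := by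
  induction k with
  | zero => simp [dl]
  | succ k ih =>
    rw [dl, sum_map_flatMap]
    have h1 : (fun p : ℚ × ℚ => ((([(2 ^ (k + 1) * p.1, 2 * p.2), (-(2 ^ (k + 1) * p.1), 2 * p.2 - 1)] :
        List (ℚ × ℚ)).map fun p : ℚ × ℚ => |(p.1 : ℝ)|).sum)) = fun p : ℚ × ℚ => 2 ^ (k + 2) * |(p.1 : ℝ)| := by
      funext p
      simp only [List.map_cons, List.map_nil, List.sum_cons, List.sum_nil]
      push_cast
      rw [abs_neg, abs_mul, abs_of_nonneg (by positivity : (0 : ℝ) ≤ 2 ^ (k + 1))]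
      ring
    rw [h1, sum_map_mul_left]
    calc (2 : ℝ) ^ (k + 2) * _ ≤ 2 ^ (k + 2) * ((2 ^ (k * (k + 3)) : ℕ) : ℝ) :=
          mul_le_mul_of_nonneg_left ih (by positivity)
      _ = ((2 ^ (k + 2 + k * (k + 3)) : ℕ) : ℝ) := by push_cast; ring
      _ ≤ _ := by
          have : 2 ^ (k + 2 + k * (k + 3)) ≤ 2 ^ ((k + 1) * (k + 1 + 3)) :=
            Nat.pow_le_pow_right (by norm_num) (by nlinarith)
          exact_mod_cast this

theorem abs_sum_map_le {α : Type*} (l : List α) (f g : α → ℝ) (h : ∀ a, |f a| ≤ g a) :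
    |(l.map f).sum| ≤ (l.map g).sum := by
  induction l with
  | nil => simp
  | cons a l ih => simpa using (abs_add_le _ _).trans (add_le_add (h a) ih)

/-- global bound: `|stp^{(k)}| ≤ 2^(k*(k+3)) `. -/
theorem abs_iteratedDeriv_stp_le (k : ℕ) (x : ℝ) : |iteratedDeriv k stp x| ≤ (2 ^ (k * (k + 3)) : ℕ) := by
  rw [iteratedDeriv_stp]
  refine le_trans (abs_sum_map_le _ _ _ fun p => ?_) (sum_abs_dl k)
  rw [abs_mul, abs_of_nonneg (stp_nonneg _)]
  exact mul_le_of_le_one_right (abs_nonneg _) (stp_le_one _)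

theorem sum_map_sub {α : Type*} (l : List α) (f g : α → ℝ) :
    (l.map f).sum - (l.map g).sum = (l.map fun a => f a - g a).sum := by
  induction l with
  | nil => simp
  | cons a l ih => simp [← ih]; ring

/-- approximations of derivatives -/
def dapx (a : ℕ × ℚ) (n : ℕ) : ℚ :=
  ((dl a.1).map fun p : ℚ × ℚ => p.1 * apx (2 ^ a.1 * a.2 + p.2) (4 * (n + 1) * 2 ^ (a.1 * (a.1 + 3)))).sum

open Crest.Agent.Lib.RatPrimrec in
theorem primrec_nat_pow : Primrec₂ (fun a b : ℕ => a ^ b) := by
  exact Primrec₂.unpaired'.1 Nat.Primrec.pow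

open Crest.Agent.Lib.RatPrimrec in
theorem primrec_dapx : Primrec₂ dapx := by
  unfold Primrec₂ dapx
  refine rat_listSum.comp ?_
  refine Primrec.list_map (primrec_dl.comp (Primrec.fst.comp Primrec.fst)) ?_
  have hk : Primrec (fun z : ((ℕ × ℚ) × ℕ) × ℚ × ℚ => z.1.1.1) :=
    Primrec.fst.comp (Primrec.fst.comp Primrec.fst)
  refine rat_mul.comp (Primrec.fst.comp Primrec.snd) (primrec_apx.comp ?_ ?_)
  · refine rat_add.comp (rat_mul.comp (rat_pow.comp (Primrec.const 2) hk) ?_) (Primrec.snd.comp Primrec.snd)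
    exact Primrec.snd.comp (Primrec.fst.comp Primrec.fst)
  · refine Primrec.nat_mul.comp (Primrec.nat_mul.comp (Primrec.const 4)
      (Primrec.succ.comp (Primrec.snd.comp Primrec.fst))) ?_
    refine primrec_nat_pow.comp (Primrec.const 2) (Primrec.nat_mul.comp hk ?_)
    exact Primrec.nat_add.comp hk (Primrec.const 3)

/-- The computability of all derivatives of `stp` at rational points. -/
theorem stp_computable : ∃ E : ℕ × ℚ → ℕ → ℚ, Computable₂ E ∧
    ∀ a n, |iteratedDeriv a.1 stp (a.2 : ℝ) - (E a n : ℝ)| ≤ 1 / ((n : ℝ) + 1) := by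
  refine ⟨dapx, primrec_dapx.to_comp, ?_⟩
  rintro ⟨k, q⟩ n
  set N : ℕ := 4 * (n + 1) * 2 ^ (k * (k + 3)) with hN
  have hcast : ((dapx (k, q) n : ℚ) : ℝ) = ((dl k).map fun p : ℚ × ℚ =>
      (p.1 : ℝ) * (apx (2 ^ k * q + p.2) N : ℝ)).sum := by
    unfold dapx
    rw [Rat.cast_list_sum, List.map_map]
    congr 1
    refine List.map_congr_left fun p _ => ?_
    simp [hN]
  rw [hcast, iteratedDeriv_stp, sum_map_sub]
  have hb : ∀ p : ℚ × ℚ, |(p.1 : ℝ) * stp (2 ^ k * (q : ℝ) + (p.2 : ℝ)) -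
      (p.1 : ℝ) * (apx (2 ^ k * q + p.2) N : ℝ)| ≤ (4 / ((N : ℝ) + 1)) * |(p.1 : ℝ)| := by
    intro p
    rw [← mul_sub, abs_mul, mul_comm]
    refine mul_le_mul_of_nonneg_right ?_ (abs_nonneg _)
    have := abs_stp_sub_apx (2 ^ k * q + p.2) N
    push_cast at this
    exact this
  refine le_trans (abs_sum_map_le _ _ _ hb) ?_
  rw [sum_map_mul_left]
  have hS := sum_abs_dl k
  set S : ℝ := ((2 ^ (k * (k + 3)) : ℕ) : ℝ) with hSdef
  have hS1 : (0 : ℝ) < S := by rw [hSdef]; positivity
  have hNS : (N : ℝ) = 4 * (n + 1) * S := by rw [hN, hSdef]; push_cast; ring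
  have hn : (0 : ℝ) < (n : ℝ) + 1 := by positivity
  calc 4 / ((N : ℝ) + 1) * _ ≤ 4 / ((N : ℝ) + 1) * S := mul_le_mul_of_nonneg_left hS (by positivity)
    _ ≤ 1 / ((n : ℝ) + 1) := by
        rw [div_mul_eq_mul_div, div_le_div_iff₀ (by positivity) hn, hNS]
        nlinarith

end Crest.Agent.R126
private theorem rz_1753e7836b : type_of% @_root_.Crest.Agent.R126.dl.eq_def := @_root_.Crest.Agent.R126.dl.eq_def -- L205
private theorem rz_4b82efb172 : type_of% @_root_.Crest.Agent.R126.dl.eq_1 := @_root_.Crest.Agent.R126.dl.eq_1 -- L205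
private theorem rz_47daeb3f7e : type_of% @_root_.Crest.Agent.R126.pts.eq_def := @_root_.Crest.Agent.R126.pts.eq_def -- L40
private theorem rz_d0dccba97f : type_of% @_root_.Crest.Agent.R126.pts.eq_1 := @_root_.Crest.Agent.R126.pts.eq_1 -- L40
private theorem rz_7631d24c55 : type_of% @_root_.Crest.Agent.R126.shf.eq_def := @_root_.Crest.Agent.R126.shf.eq_def -- L79
private theorem rz_561e250424 : type_of% @_root_.Crest.Agent.R126.shf.eq_1 := @_root_.Crest.Agent.R126.shf.eq_1 -- L79
end

-- ▼ part R126/Comp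
section

set_option autoImplicit false
open scoped ContDiff

namespace Crest.Agent.R126

open Crest.Agent.Lib.RatPrimrec

/-- A family of reals, computably approximable with error `1/(n+1)`. -/
def CompFam {α : Type*} [Primcodable α] (f : α → ℝ) : Prop :=
  ∃ E : α → ℕ → ℚ, Computable₂ E ∧ ∀ a n, |f a - (E a n : ℝ)| ≤ 1 / ((n : ℝ) + 1)

section
variable {α β : Type*} [Primcodable α] [Primcodable β]

theorem CompFam.congr {f g : α → ℝ} (hf : CompFam f) (h : ∀ a, g a = f a) : CompFam g := by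
  have : g = f := funext h
  rwa [this]

theorem CompFam.of_rat {f : α → ℚ} (hf : Computable f) : CompFam (fun a => (f a : ℝ)) := by
  refine ⟨fun a _ => f a, hf.comp Computable.fst, fun a n => ?_⟩
  rw [sub_self, abs_zero]
  positivity

theorem CompFam.comp {f : β → ℝ} {g : α → β} (hf : CompFam f) (hg : Computable g) :
    CompFam (fun a => f (g a)) := by
  obtain ⟨E, hE, h⟩ := hf
  exact ⟨fun a n => E (g a) n, hE.comp (hg.comp Computable.fst) Computable.snd, fun a n => h _ n⟩

theorem CompFam.add {f g : α → ℝ} (hf : CompFam f) (hg : CompFam g) : CompFam (fun a => f a + g a) := by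
  obtain ⟨E, hE, h⟩ := hf
  obtain ⟨E', hE', h'⟩ := hg
  have hn : Primrec (fun p : α × ℕ => 2 * p.2 + 1) :=
    Primrec.succ.comp (Primrec.nat_mul.comp (Primrec.const 2) Primrec.snd)
  refine ⟨fun a n => E a (2 * n + 1) + E' a (2 * n + 1),
    rat_add.to_comp.comp (hE.comp Computable.fst hn.to_comp)
      (hE'.comp Computable.fst hn.to_comp), fun a n => ?_⟩
  have h1 := h a (2 * n + 1)
  have h2 := h' a (2 * n + 1)
  push_cast at h1 h2 ⊢
  have e : (1 : ℝ) / (2 * n + 1 + 1) + 1 / (2 * n + 1 + 1) = 1 / (n + 1) := by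
    field_simp
    ring
  calc |f a + g a - (E a (2 * n + 1) + E' a (2 * n + 1))|
      = |(f a - E a (2 * n + 1)) + (g a - E' a (2 * n + 1))| := by congr 1; ring
    _ ≤ |f a - E a (2 * n + 1)| + |g a - E' a (2 * n + 1)| := abs_add_le _ _
    _ ≤ 1 / (2 * n + 1 + 1) + 1 / (2 * n + 1 + 1) := add_le_add h1 h2
    _ = 1 / (n + 1) := e

theorem CompFam.neg {f : α → ℝ} (hf : CompFam f) : CompFam (fun a => - f a) := by
  obtain ⟨E, hE, h⟩ := hf
  refine ⟨fun a n => - E a n, rat_neg.to_comp.comp (hE.comp Computable.fst Computable.snd),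
    fun a n => ?_⟩
  have := h a n
  rw [abs_sub_comm] at this
  push_cast
  convert this using 2
  ring

theorem CompFam.sub {f g : α → ℝ} (hf : CompFam f) (hg : CompFam g) : CompFam (fun a => f a - g a) :=
  (hf.add hg.neg).congr fun a => by ring

theorem CompFam.mul {f g : α → ℝ} (hf : CompFam f) (hg : CompFam g) : CompFam (fun a => f a * g a) := by
  obtain ⟨E, hE, h⟩ := hf
  obtain ⟨E', hE', h'⟩ := hg
  -- the precision used
  let N : α × ℕ → ℕ := fun p => (⌊|E p.1 0| + |E' p.1 0|⌋.toNat + 4) * (p.2 + 1)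
  have hN : Computable N := by
    have h1 : Computable (fun p : α × ℕ => |E p.1 0|) :=
      rat_abs.to_comp.comp (hE.comp Computable.fst (Computable.const 0))
    have h2 : Computable (fun p : α × ℕ => |E' p.1 0|) :=
      rat_abs.to_comp.comp (hE'.comp Computable.fst (Computable.const 0))
    have h3 : Computable (fun p : α × ℕ => |E p.1 0| + |E' p.1 0|) := rat_add.to_comp.comp h1 h2
    have h4 : Computable (fun p : α × ℕ => ⌊|E p.1 0| + |E' p.1 0|⌋.toNat) :=
      int_toNat.to_comp.comp (rat_floor.to_comp.comp h3)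
    have h5 : Computable (fun p : α × ℕ => ⌊|E p.1 0| + |E' p.1 0|⌋.toNat + 4) :=
      Primrec.nat_add.to_comp.comp h4 (Computable.const 4)
    exact Primrec.nat_mul.to_comp.comp h5 (Primrec.succ.to_comp.comp Computable.snd)
  refine ⟨fun a n => E a (N (a, n)) * E' a (N (a, n)),
    rat_mul.to_comp.comp (hE.comp Computable.fst hN) (hE'.comp Computable.fst hN), fun a n => ?_⟩
  set m := N (a, n) with hm
  have hf1 : |f a| ≤ |(E a 0 : ℝ)| + 1 := by
    have := h a 0
    simp only [Nat.cast_zero, zero_add, div_one] at this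
    have h2 := abs_sub_abs_le_abs_sub (f a) (E a 0 : ℝ)
    linarith
  have hg1 : |g a| ≤ |(E' a 0 : ℝ)| + 1 := by
    have := h' a 0
    simp only [Nat.cast_zero, zero_add, div_one] at this
    have h2 := abs_sub_abs_le_abs_sub (g a) (E' a 0 : ℝ)
    linarith
  have hδ : (0 : ℝ) < (m : ℝ) + 1 := by positivity
  have hδ1 : 1 / ((m : ℝ) + 1) ≤ 1 := by
    rw [div_le_one hδ]
    linarith [(Nat.cast_nonneg m : (0 : ℝ) ≤ m)]
  have hg2 : |(E' a m : ℝ)| ≤ |(E' a 0 : ℝ)| + 2 := by
    have h3 := h' a m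
    rw [abs_sub_comm] at h3
    have h2 := abs_sub_abs_le_abs_sub (E' a m : ℝ) (g a)
    linarith
  have hK : |(E a 0 : ℝ)| + |(E' a 0 : ℝ)| + 3 ≤ ((⌊|E a 0| + |E' a 0|⌋.toNat + 4 : ℕ) : ℝ) := by
    have h1 : |E a 0| + |E' a 0| < ((⌊|E a 0| + |E' a 0|⌋ : ℤ) : ℚ) + 1 := Int.lt_floor_add_one _
    have h2 : ((⌊|E a 0| + |E' a 0|⌋ : ℤ) : ℚ) ≤ ((⌊|E a 0| + |E' a 0|⌋.toNat : ℕ) : ℚ) := by
      have : (⌊|E a 0| + |E' a 0|⌋ : ℤ) ≤ ((⌊|E a 0| + |E' a 0|⌋.toNat : ℕ) : ℤ) := Int.self_le_toNat _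
      exact_mod_cast this
    have h3 : |E a 0| + |E' a 0| + 3 ≤ ((⌊|E a 0| + |E' a 0|⌋.toNat + 4 : ℕ) : ℚ) := by
      push_cast
      linarith
    have h4 : ((|E a 0| + |E' a 0| + 3 : ℚ) : ℝ) ≤
        (((⌊|E a 0| + |E' a 0|⌋.toNat + 4 : ℕ) : ℚ) : ℝ) := by exact_mod_cast h3
    push_cast at h4 ⊢
    linarith
  set K : ℕ := ⌊|E a 0| + |E' a 0|⌋.toNat + 4 with hKdef
  have hmK : (m : ℝ) = K * (n + 1) := by
    rw [hm]
    simp only [N]
    push_cast [hKdef]
    ring
  have hKpos : (0 : ℝ) < K := by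
    have : (0 : ℝ) ≤ |(E a 0 : ℝ)| := abs_nonneg _
    have : (0 : ℝ) ≤ |(E' a 0 : ℝ)| := abs_nonneg _
    linarith
  push_cast
  have e1 : f a * g a - (E a m : ℝ) * (E' a m : ℝ)
      = f a * (g a - E' a m) + E' a m * (f a - E a m) := by ring
  rw [e1]
  calc |f a * (g a - E' a m) + E' a m * (f a - E a m)|
      ≤ |f a * (g a - E' a m)| + |(E' a m : ℝ) * (f a - E a m)| := abs_add_le _ _
    _ = |f a| * |g a - E' a m| + |(E' a m : ℝ)| * |f a - E a m| := by rw [abs_mul, abs_mul]
    _ ≤ (|(E a 0 : ℝ)| + 1) * (1 / (m + 1)) + (|(E' a 0 : ℝ)| + 2) * (1 / (m + 1)) := by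
        gcongr
        · exact h' a m
        · exact h a m
    _ = (|(E a 0 : ℝ)| + |(E' a 0 : ℝ)| + 3) * (1 / (m + 1)) := by ring
    _ ≤ K * (1 / (m + 1)) := by gcongr
    _ ≤ K * (1 / (K * (n + 1))) := by
        apply mul_le_mul_of_nonneg_left _ hKpos.le
        apply one_div_le_one_div_of_le (by positivity)
        rw [hmK]; linarith
    _ = 1 / (n + 1) := by field_simp

end

/-- A computable real number. -/
def CompReal (c : ℝ) : Prop := CompFam (fun _ : Unit => c)

theorem CompReal.rat (q : ℚ) : CompReal (q : ℝ) :=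
  CompFam.of_rat (α := Unit) (Computable.const q)

theorem CompReal.fam {α : Type*} [Primcodable α] {c : ℝ} (h : CompReal c) : CompFam (fun _ : α => c) :=
  CompFam.comp h (Computable.const ())

theorem compReal_log_one_sub (x : ℚ) (h0 : 0 ≤ x) (h1 : x < 1) : CompReal (Real.log (1 - (x : ℝ))) := by
  have hx0 : (0 : ℝ) ≤ (x : ℝ) := by exact_mod_cast h0
  have hx1 : (x : ℝ) < 1 := by exact_mod_cast h1
  obtain ⟨C, hC⟩ : ∃ C : ℕ, ∀ n : ℕ, (n : ℝ) * (x : ℝ) ^ n / (1 - x) ≤ C := by
    have ht := (tendsto_self_mul_const_pow_of_lt_one hx0 hx1).div_const (1 - (x : ℝ))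
    obtain ⟨B, hB⟩ := ht.bddAbove_range
    obtain ⟨C, hC⟩ := exists_nat_ge B
    exact ⟨C, fun n => (hB ⟨n, rfl⟩).trans hC⟩
  refine ⟨fun _ n => -(((List.range (C * (n + 1))).map fun i => x ^ (i + 1) / ((i + 1 : ℕ) : ℚ)).sum),
    ?_, fun _ n => ?_⟩
  · have h1 : Primrec (fun p : Unit × ℕ => List.range (C * (p.2 + 1))) :=
      Primrec.list_range.comp (Primrec.nat_mul.comp (Primrec.const C)
        (Primrec.succ.comp Primrec.snd))
    have h2 : Primrec₂ (fun (_ : Unit × ℕ) (i : ℕ) => x ^ (i + 1) / ((i + 1 : ℕ) : ℚ)) := by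
      have h3 : Primrec (fun q : (Unit × ℕ) × ℕ => x ^ (q.2 + 1)) :=
        rat_pow.comp (Primrec.const x) (Primrec.succ.comp Primrec.snd)
      have h4 : Primrec (fun q : (Unit × ℕ) × ℕ => ((q.2 + 1 : ℕ) : ℚ)) :=
        rat_natCast.comp (Primrec.succ.comp Primrec.snd)
      exact rat_div.comp h3 h4
    exact (rat_neg.comp (rat_listSum.comp (Primrec.list_map h1 h2))).to_comp
  · have hb := Real.abs_log_sub_add_sum_range_le (x := (x : ℝ)) (by rwa [abs_of_nonneg hx0]) (C * (n + 1))
    rw [abs_of_nonneg hx0] at hb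
    have hs : ((-(((List.range (C * (n + 1))).map
        fun i => x ^ (i + 1) / ((i + 1 : ℕ) : ℚ)).sum) : ℚ) : ℝ)
        = - ∑ i ∈ Finset.range (C * (n + 1)), (x : ℝ) ^ (i + 1) / (i + 1) := by
      rw [← List.sum_toFinset _ (List.nodup_range)]
      push_cast
      congr 1
      apply Finset.sum_congr _ (fun _ _ => rfl)
      ext; simp
    rw [hs, sub_neg_eq_add, add_comm]
    refine hb.trans ?_
    have hpos : (0 : ℝ) < ((C * (n + 1) + 1 : ℕ) : ℝ) := by positivity
    have h2 := hC (C * (n + 1) + 1)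
    have h3 : (x : ℝ) ^ (C * (n + 1) + 1) / (1 - x) ≤ C / ((C * (n + 1) + 1 : ℕ) : ℝ) := by
      rw [le_div_iff₀ hpos]
      calc (x : ℝ) ^ (C * (n + 1) + 1) / (1 - x) * ((C * (n + 1) + 1 : ℕ) : ℝ)
          = ((C * (n + 1) + 1 : ℕ) : ℝ) * (x : ℝ) ^ (C * (n + 1) + 1) / (1 - x) := by ring
        _ ≤ C := h2
    refine h3.trans ?_
    rw [div_le_div_iff₀ hpos (by positivity)]
    push_cast
    nlinarith [(Nat.cast_nonneg C : (0 : ℝ) ≤ C), (Nat.cast_nonneg n : (0 : ℝ) ≤ n)]

theorem CompReal.log (q : ℚ) (hq : 0 < q) : CompReal (Real.log (q : ℝ)) := by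
  rcases le_or_gt q 1 with h | h
  · have := compReal_log_one_sub (1 - q) (by linarith) (by linarith)
    push_cast at this
    simpa using this
  · have hq1 : q⁻¹ < 1 := inv_lt_one_of_one_lt₀ h
    have hq0 : 0 < q⁻¹ := inv_pos.2 hq
    have := compReal_log_one_sub (1 - q⁻¹) (by linarith) (by linarith)
    push_cast at this
    rw [sub_sub_cancel, Real.log_inv] at this
    exact (CompFam.neg this).congr fun _ => by ring

/-- Effective one-variable functions. -/
structure Eff1 (f : ℝ → ℝ) : Prop where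
  smooth : ContDiff ℝ ∞ f
  comp : CompFam (fun a : ℕ × ℚ => iteratedDeriv a.1 f (a.2 : ℝ))
  bdd : ∃ B : ℕ → ℕ, Computable B ∧ ∀ k x, |iteratedDeriv k f x| ≤ (B k : ℝ)

theorem Eff1.stp : Eff1 stp := by
  refine ⟨stp_contDiff, stp_computable, fun k => 2 ^ (k * (k + 3)), ?_, fun k x => ?_⟩
  · have h : Primrec (fun k : ℕ => k * (k + 3)) :=
      Primrec.nat_mul.comp Primrec.id (Primrec.nat_add.comp Primrec.id (Primrec.const 3))
    exact (primrec_pow.comp (Primrec.const 2) h).to_comp
  · exact abs_iteratedDeriv_stp_le k x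

theorem Eff1.comp_affine {f : ℝ → ℝ} (hf : Eff1 f) (a b : ℚ) :
    Eff1 (fun x => f ((a : ℝ) * x + (b : ℝ))) := by
  have hs : ContDiff ℝ ∞ (fun x => f ((a : ℝ) * x + (b : ℝ))) :=
    hf.smooth.comp ((contDiff_const.mul contDiff_id).add contDiff_const)
  have key : ∀ (k : ℕ) (x : ℝ), iteratedDeriv k (fun x => f ((a : ℝ) * x + (b : ℝ))) x
      = (a : ℝ) ^ k * iteratedDeriv k f ((a : ℝ) * x + (b : ℝ)) := by
    intro k x
    have h1 : ContDiff ℝ k (fun z => f (z + (b : ℝ))) :=
      (hf.smooth.comp (contDiff_id.add contDiff_const)).of_le (by exact_mod_cast le_top)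
    have h2 := congrFun (iteratedDeriv_comp_const_mul h1 (a : ℝ)) x
    rw [h2]
    have h3 := congrFun (iteratedDeriv_comp_add_const k f (b : ℝ)) ((a : ℝ) * x)
    rw [h3]
  refine ⟨hs, ?_, ?_⟩
  · have h1 : CompFam (fun p : ℕ × ℚ => ((a ^ p.1 : ℚ) : ℝ)) :=
      CompFam.of_rat (rat_pow.comp (Primrec.const a) Primrec.fst).to_comp
    have h2 : Computable (fun p : ℕ × ℚ => (p.1, a * p.2 + b)) :=
      (Primrec.fst.pair (rat_add.comp (rat_mul.comp (Primrec.const a) Primrec.snd)
        (Primrec.const b))).to_comp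
    refine (h1.mul (hf.comp.comp h2)).congr fun p => ?_
    rw [key]
    push_cast
    rfl
  · obtain ⟨B, hB, hB'⟩ := hf.bdd
    obtain ⟨N, hN⟩ := exists_nat_ge |(a : ℝ)|
    refine ⟨fun k => N ^ k * B k, ?_, fun k x => ?_⟩
    · exact Primrec.nat_mul.to_comp.comp
        (primrec_pow.to_comp.comp (Computable.const N) Computable.id) hB
    · rw [key, abs_mul, abs_pow]
      push_cast
      gcongr
      exact hB' k _

theorem Eff1.deriv {f : ℝ → ℝ} (hf : Eff1 f) : Eff1 (_root_.deriv f) := by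
  refine ⟨?_, ?_, ?_⟩
  · exact (contDiff_infty_iff_deriv.1 hf.smooth).2
  · have h2 : Computable (fun p : ℕ × ℚ => (p.1 + 1, p.2)) :=
      ((Primrec.succ.comp Primrec.fst).pair Primrec.snd).to_comp
    refine (hf.comp.comp h2).congr fun p => ?_
    simp only [iteratedDeriv_succ']
  · obtain ⟨B, hB, hB'⟩ := hf.bdd
    refine ⟨fun k => B (k + 1), hB.comp Primrec.succ.to_comp, fun k x => ?_⟩
    rw [← iteratedDeriv_succ']
    exact hB' _ _

theorem Eff1.sub {f g : ℝ → ℝ} (hf : Eff1 f) (hg : Eff1 g) : Eff1 (fun x => f x - g x) := by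
  have key : ∀ (k : ℕ) (x : ℝ), iteratedDeriv k (fun x => f x - g x) x
      = iteratedDeriv k f x - iteratedDeriv k g x := fun k x =>
    iteratedDeriv_fun_sub ((hf.smooth.of_le (by exact_mod_cast le_top)).contDiffAt)
      ((hg.smooth.of_le (by exact_mod_cast le_top)).contDiffAt)
  refine ⟨hf.smooth.sub hg.smooth, (hf.comp.sub hg.comp).congr fun p => key _ _, ?_⟩
  obtain ⟨B, hB, hB'⟩ := hf.bdd
  obtain ⟨C, hC, hC'⟩ := hg.bdd
  refine ⟨fun k => B k + C k, Primrec.nat_add.to_comp.comp hB hC, fun k x => ?_⟩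
  rw [key]
  push_cast
  exact (abs_sub _ _).trans (add_le_add (hB' k x) (hC' k x))

theorem Eff1.const_mul {f : ℝ → ℝ} (hf : Eff1 f) {c : ℝ} (hc : CompReal c) : Eff1 (fun x => c * f x) := by
  have key : ∀ (k : ℕ) (x : ℝ), iteratedDeriv k (fun x => c * f x) x
      = c * iteratedDeriv k f x := fun k x => iteratedDeriv_const_mul_field c f
  refine ⟨contDiff_const.mul hf.smooth, ((hc.fam).mul hf.comp).congr fun p => key _ _, ?_⟩
  obtain ⟨B, hB, hB'⟩ := hf.bdd
  obtain ⟨N, hN⟩ := exists_nat_ge |c|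
  refine ⟨fun k => N * B k, Primrec.nat_mul.to_comp.comp (Computable.const N) hB, fun k x => ?_⟩
  rw [key, abs_mul]
  push_cast
  gcongr
  exact hB' k x

/-- derivatives of an affine function times `f`. -/
theorem iteratedDeriv_affine_mul {f : ℝ → ℝ} (hf : ContDiff ℝ ∞ f) (a b : ℝ) (k : ℕ) (x : ℝ) :
    iteratedDeriv k (fun x => (a * x + b) * f x) x
      = (a * x + b) * iteratedDeriv k f x + (k : ℝ) * a * iteratedDeriv (k - 1) f x := by
  induction k generalizing x with
  | zero => simp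
  | succ k ih =>
    have hd : ∀ j : ℕ, ∀ y, HasDerivAt (iteratedDeriv j f) (iteratedDeriv (j + 1) f y) y := by
      intro j y
      rw [iteratedDeriv_succ]
      have : ContDiff ℝ (j + 1 : ℕ) f := hf.of_le (by exact_mod_cast le_top)
      exact ((this.differentiable_iteratedDeriv' j) y).hasDerivAt
    rw [iteratedDeriv_succ, show iteratedDeriv k (fun x => (a * x + b) * f x)
      = fun x => (a * x + b) * iteratedDeriv k f x + (k : ℝ) * a * iteratedDeriv (k - 1) f x
      from funext ih]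
    have h1 : HasDerivAt (fun x : ℝ => a * x + b) a x := by
      simpa using ((hasDerivAt_id x).const_mul a).add_const b
    have h2 := h1.fun_mul (hd k x)
    rcases k with _ | k
    · have h3 : HasDerivAt (fun x => (a * x + b) * iteratedDeriv 0 f x
          + ((0 : ℕ) : ℝ) * a * iteratedDeriv (0 - 1) f x)
          (a * iteratedDeriv 0 f x + (a * x + b) * iteratedDeriv (0 + 1) f x) x := by
        simpa using h2
      rw [h3.deriv]
      simp
      ring
    · have h3 := h2.fun_add ((hd k x).const_mul (((k + 1 : ℕ) : ℝ) * a))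
      have h4 : HasDerivAt (fun x => (a * x + b) * iteratedDeriv (k + 1) f x
          + ((k + 1 : ℕ) : ℝ) * a * iteratedDeriv (k + 1 - 1) f x)
          (a * iteratedDeriv (k + 1) f x + (a * x + b) * iteratedDeriv (k + 1 + 1) f x
            + ((k + 1 : ℕ) : ℝ) * a * iteratedDeriv (k + 1) f x) x := h3
      rw [h4.deriv]
      simp only [Nat.add_sub_cancel]
      push_cast
      ring

/-- multiplication by an affine function with rational coefficients, for compactly supported `f`. -/
theorem Eff1.affine_mul {f : ℝ → ℝ} (hf : Eff1 f) (hc : HasCompactSupport f) (a b : ℚ) :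
    Eff1 (fun x => ((a : ℝ) * x + (b : ℝ)) * f x) := by
  have key := iteratedDeriv_affine_mul hf.smooth (a : ℝ) (b : ℝ)
  refine ⟨((contDiff_const.mul contDiff_id).add contDiff_const).mul hf.smooth, ?_, ?_⟩
  · have h1 : CompFam (fun p : ℕ × ℚ => ((a * p.2 + b : ℚ) : ℝ)) :=
      CompFam.of_rat (rat_add.comp (rat_mul.comp (Primrec.const a) Primrec.snd)
        (Primrec.const b)).to_comp
    have h2 : CompFam (fun p : ℕ × ℚ => (((p.1 : ℚ) * a : ℚ) : ℝ)) :=
      CompFam.of_rat (rat_mul.comp (rat_natCast.comp Primrec.fst) (Primrec.const a)).to_comp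
    have h3 : Computable (fun p : ℕ × ℚ => (p.1 - 1, p.2)) :=
      ((Primrec.pred.comp Primrec.fst).pair Primrec.snd).to_comp
    refine ((h1.mul hf.comp).add (h2.mul (hf.comp.comp h3))).congr fun p => ?_
    rw [key]
    push_cast
    rfl
  · obtain ⟨B, hB, hB'⟩ := hf.bdd
    obtain ⟨R, hR⟩ := hc.isCompact.isBounded.subset_closedBall 0
    obtain ⟨N, hN⟩ := exists_nat_ge (|(a : ℝ)| * |R| + |(b : ℝ)|)
    obtain ⟨M, hM⟩ := exists_nat_ge |(a : ℝ)|
    refine ⟨fun k => N * B k + k * M * B (k - 1), ?_, fun k x => ?_⟩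
    · have h1 : Computable (fun k : ℕ => B (k - 1)) := hB.comp Primrec.pred.to_comp
      exact Primrec.nat_add.to_comp.comp
        (Primrec.nat_mul.to_comp.comp (Computable.const N) hB)
        (Primrec.nat_mul.to_comp.comp
          (Primrec.nat_mul.to_comp.comp Computable.id (Computable.const M)) h1)
    · rw [key]
      push_cast
      refine (abs_add_le _ _).trans (add_le_add ?_ ?_)
      · by_cases hx : x ∈ tsupport f
        · rw [abs_mul]
          have hx' := hR hx
          rw [Metric.mem_closedBall, dist_zero_right, Real.norm_eq_abs] at hx'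
          have h1 : |(a : ℝ) * x + b| ≤ N := by
            refine (abs_add_le _ _).trans (le_trans ?_ hN)
            rw [abs_mul]
            exact add_le_add (mul_le_mul_of_nonneg_left (hx'.trans (le_abs_self R))
              (abs_nonneg _)) le_rfl
          gcongr
          exact hB' k x
        · have h0 : iteratedDeriv k f x = 0 := by
            have : f =ᶠ[nhds x] fun _ => (0 : ℝ) := by
              have hmem : (tsupport f)ᶜ ∈ nhds x :=
                (isClosed_tsupport f).isOpen_compl.mem_nhds hx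
              filter_upwards [hmem] with y hy
              exact image_eq_zero_of_notMem_tsupport hy
            rw [this.iteratedDeriv_eq]
            simp
          rw [h0, mul_zero, abs_zero]
          positivity
      · rw [abs_mul, abs_mul, Nat.abs_cast]
        gcongr
        exact hB' _ x

/-! ### the cutoff -/

/-- Cutoff: equal to `1` for `|x - c| ≤ h + ε/2`, equal to `0` for `h + ε ≤ |x - c|`. -/
noncomputable def cut (c h ε : ℚ) (x : ℝ) : ℝ :=
  stp (((2 / ε : ℚ) : ℝ) * x + ((2 / ε * (h + ε - c) : ℚ) : ℝ)) -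
    stp (((2 / ε : ℚ) : ℝ) * x + ((2 / ε * (- h - ε / 2 - c) : ℚ) : ℝ))

theorem cut_eff (c h ε : ℚ) : Eff1 (cut c h ε) :=
  (Eff1.stp.comp_affine _ _).sub (Eff1.stp.comp_affine _ _)

theorem cut_arg1 {c h ε : ℚ} {x : ℝ} :
    ((2 / ε : ℚ) : ℝ) * x + ((2 / ε * (h + ε - c) : ℚ) : ℝ) = 2 / ε * ((x - c) + h + ε) := by
  push_cast; ring

theorem cut_arg2 {c h ε : ℚ} {x : ℝ} :
    ((2 / ε : ℚ) : ℝ) * x + ((2 / ε * (- h - ε / 2 - c) : ℚ) : ℝ)
      = 2 / ε * ((x - c) - h - ε / 2) := by
  push_cast; ring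

theorem cut_eq_one {c h ε : ℚ} (hh : 0 ≤ h) (hε : 0 < ε) {x : ℝ} (hx : |x - c| ≤ h + ε / 2) :
    cut c h ε x = 1 := by
  have hε' : (0 : ℝ) < ε := by exact_mod_cast hε
  have hx1 := (abs_le.1 hx).1
  have hx2 := (abs_le.1 hx).2
  rw [cut, cut_arg1, cut_arg2, stp_of_one_le, stp_of_nonpos, sub_zero]
  · apply mul_nonpos_of_nonneg_of_nonpos (by positivity)
    linarith
  · rw [div_mul_eq_mul_div, le_div_iff₀ hε']
    linarith

theorem cut_eq_zero {c h ε : ℚ} (hh : 0 ≤ h) (hε : 0 < ε) {x : ℝ} (hx : h + ε ≤ |x - c|) :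
    cut c h ε x = 0 := by
  have hε' : (0 : ℝ) < ε := by exact_mod_cast hε
  have hh' : (0 : ℝ) ≤ h := by exact_mod_cast hh
  rw [cut, cut_arg1, cut_arg2]
  rcases le_abs.1 hx with h1 | h1
  · rw [stp_of_one_le, stp_of_one_le, sub_self]
    · rw [div_mul_eq_mul_div, le_div_iff₀ hε']
      linarith
    · rw [div_mul_eq_mul_div, le_div_iff₀ hε']
      linarith
  · rw [stp_of_nonpos, stp_of_nonpos, sub_self]
    · apply mul_nonpos_of_nonneg_of_nonpos (by positivity)
      linarith
    · apply mul_nonpos_of_nonneg_of_nonpos (by positivity)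
      linarith

theorem cut_compact {c h ε : ℚ} (hh : 0 ≤ h) (hε : 0 < ε) : HasCompactSupport (cut c h ε) := by
  refine HasCompactSupport.intro (isCompact_closedBall (c : ℝ) ((h : ℝ) + ε)) fun x hx => ?_
  refine cut_eq_zero hh hε ?_
  rw [Metric.mem_closedBall, Real.dist_eq, not_le] at hx
  exact hx.le

end Crest.Agent.R126
end

-- ▼ part R126/Tensor
section

set_option autoImplicit false
open scoped ContDiff
open Crest.AnalysisR.BoxFlow

namespace Crest.Agent.R126

/-- Tensor product of four one-variable functions: `g 0` of time, `g (k+1)` of the `k`-th coordinate. -/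
def T (g : Fin 4 → ℝ → ℝ) (p : ℝ × (Fin 3 → ℝ)) : ℝ := g 0 p.1 * ∏ k : Fin 3, g k.succ (p.2 k)

/-- vector field in direction `k`. -/
def TF (k : Fin 3) (g : Fin 4 → ℝ → ℝ) : Field := fun p => Pi.single k (T g p)

theorem T_contDiff {g : Fin 4 → ℝ → ℝ} (hg : ∀ i, ContDiff ℝ ∞ (g i)) : ContDiff ℝ ∞ (T g) := by
  unfold T
  apply ContDiff.mul
  · exact (hg 0).comp contDiff_fst
  · apply contDiff_prod
    intro k _
    exact (hg k.succ).comp ((contDiff_apply ℝ ℝ k).comp contDiff_snd)

theorem TF_eq (k : Fin 3) (g : Fin 4 → ℝ → ℝ) :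
    TF k g = fun p => (ContinuousLinearMap.single ℝ (fun _ : Fin 3 => ℝ) k) (T g p) := by
  funext p
  simp [TF]

theorem TF_contDiff {k : Fin 3} {g : Fin 4 → ℝ → ℝ} (hg : ∀ i, ContDiff ℝ ∞ (g i)) :
    ContDiff ℝ ∞ (TF k g) := by
  rw [TF_eq]
  exact (ContinuousLinearMap.contDiff _).comp (T_contDiff hg)

theorem direction_zero : direction 0 = ((1 : ℝ), (0 : Fin 3 → ℝ)) := by simp [direction]
theorem direction_succ (k : Fin 3) : direction k.succ = ((0 : ℝ), (Pi.single k 1 : Fin 3 → ℝ)) := by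
  simp [direction]

theorem fderiv_T {g : Fin 4 → ℝ → ℝ} (hg : ∀ i, ContDiff ℝ ∞ (g i)) (d : Fin 4)
    (p : ℝ × (Fin 3 → ℝ)) :
    fderiv ℝ (T g) p (direction d) = T (Function.update g d (deriv (g d))) p := by
  have hd : DifferentiableAt ℝ (T g) p := (T_contDiff hg).differentiable (by simp) p
  rw [← hd.lineDeriv_eq_fderiv, lineDeriv]
  have hgd : ∀ i x, HasDerivAt (fun s : ℝ => g i (x + s)) (deriv (g i) x) 0 := fun i x => by
    have := ((hg i).differentiable (by simp) (x + 0)).hasDerivAt.comp_const_add x 0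
    simpa using this
  apply HasDerivAt.deriv
  obtain rfl | rfl | rfl | rfl : d = 0 ∨ d = 1 ∨ d = 2 ∨ d = 3 := by fin_cases d <;> simp
  · have h1 := (hgd 0 p.1).mul_const (∏ k : Fin 3, g k.succ (p.2 k))
    have e : (fun s : ℝ => T g (p + s • direction 0)) =
        fun s => g 0 (p.1 + s) * ∏ k : Fin 3, g k.succ (p.2 k) := by
      funext s
      simp [T, direction_zero]
    rw [e]
    refine h1.congr_deriv ?_
    simp [T, Fin.prod_univ_three]
  · have h1 := (hgd 1 (p.2 0)).const_mul (g 0 p.1 * g 2 (p.2 1) * g 3 (p.2 2))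
    have e : (fun s : ℝ => T g (p + s • direction 1)) =
        fun s => g 0 p.1 * g 2 (p.2 1) * g 3 (p.2 2) * g 1 (p.2 0 + s) := by
      funext s
      rw [show direction 1 = _ from direction_succ 0]
      simp [T, Fin.prod_univ_three, Pi.single_apply]
      ring
    rw [e]
    refine h1.congr_deriv ?_
    simp [T, Fin.prod_univ_three, Function.update]
    ring
  · have h1 := (hgd 2 (p.2 1)).const_mul (g 0 p.1 * g 1 (p.2 0) * g 3 (p.2 2))
    have e : (fun s : ℝ => T g (p + s • direction 2)) =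
        fun s => g 0 p.1 * g 1 (p.2 0) * g 3 (p.2 2) * g 2 (p.2 1 + s) := by
      funext s
      rw [show direction 2 = _ from direction_succ 1]
      simp [T, Fin.prod_univ_three, Pi.single_apply]
      ring
    rw [e]
    refine h1.congr_deriv ?_
    simp [T, Fin.prod_univ_three, Function.update]
    ring
  · have h1 := (hgd 3 (p.2 2)).const_mul (g 0 p.1 * g 1 (p.2 0) * g 2 (p.2 1))
    have e : (fun s : ℝ => T g (p + s • direction 3)) =
        fun s => g 0 p.1 * g 1 (p.2 0) * g 2 (p.2 1) * g 3 (p.2 2 + s) := by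
      funext s
      rw [show direction 3 = _ from direction_succ 2]
      simp [T, Fin.prod_univ_three, Pi.single_apply]
      ring
    rw [e]
    refine h1.congr_deriv ?_
    simp [T, Fin.prod_univ_three, Function.update]
    ring

/-- directional derivative of a tensor product. -/
theorem fderiv_TF {k : Fin 3} {g : Fin 4 → ℝ → ℝ} (hg : ∀ i, ContDiff ℝ ∞ (g i)) (d : Fin 4)
    (p : ℝ × (Fin 3 → ℝ)) :
    fderiv ℝ (TF k g) p (direction d) = TF k (Function.update g d (deriv (g d))) p := by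
  have hd : DifferentiableAt ℝ (T g) p := (T_contDiff hg).differentiable (by simp) p
  rw [TF_eq, TF_eq]
  have := ((ContinuousLinearMap.single ℝ (fun _ : Fin 3 => ℝ) k).hasFDerivAt
    (x := T g p)).comp p hd.hasFDerivAt
  have h2 := this.fderiv
  simp only [Function.comp_def] at h2
  rw [h2, ContinuousLinearMap.comp_apply, fderiv_T hg]


theorem iteratedDeriv_contDiff {f : ℝ → ℝ} (hf : ContDiff ℝ ∞ f) (n : ℕ) : ContDiff ℝ ∞ (iteratedDeriv n f) := by
  rw [iteratedDeriv_eq_iterate]
  exact ContDiff.iterate_deriv n hf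

theorem mixedDeriv_cons (d : Fin 4) (ds : List (Fin 4)) (U : Field) (p : ℝ × (Fin 3 → ℝ)) :
    mixedDeriv (d :: ds) U p = fderiv ℝ (mixedDeriv ds U) p (direction d) := rfl

theorem mixedDeriv_TF {k : Fin 3} {g : Fin 4 → ℝ → ℝ} (hg : ∀ i, ContDiff ℝ ∞ (g i)) (ds : List (Fin 4)) :
    mixedDeriv ds (TF k g) = TF k (fun i => iteratedDeriv (ds.count i) (g i)) := by
  induction ds with
  | nil =>
    simp [mixedDeriv]
  | cons d ds ih =>
    funext p
    rw [mixedDeriv_cons, ih, fderiv_TF (fun i => iteratedDeriv_contDiff (hg i) _)]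
    congr 1
    funext i
    by_cases h : i = d
    · subst h
      simp [iteratedDeriv_succ]
    · rw [Function.update_of_ne h, List.count_cons_of_ne (Ne.symm h)]

theorem mixedDeriv_contDiff {U : Field} (hU : ContDiff ℝ ∞ U) (ds : List (Fin 4)) :
    ContDiff ℝ ∞ (mixedDeriv ds U) := by
  induction ds with
  | nil => simpa [mixedDeriv] using hU
  | cons d ds ih =>
    have h1 : ContDiff ℝ ∞ (fderiv ℝ (mixedDeriv ds U)) := ih.fderiv_right (by simp)
    exact h1.clm_apply contDiff_const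

theorem mixedDeriv_add {U V : Field} (hU : ContDiff ℝ ∞ U) (hV : ContDiff ℝ ∞ V) (ds : List (Fin 4)) :
    mixedDeriv ds (fun p => U p + V p) = fun p => mixedDeriv ds U p + mixedDeriv ds V p := by
  induction ds with
  | nil => rfl
  | cons d ds ih =>
    funext p
    rw [mixedDeriv_cons, ih]
    have h1 := (mixedDeriv_contDiff hU ds).differentiable (by simp) p
    have h2 := (mixedDeriv_contDiff hV ds).differentiable (by simp) p
    rw [fderiv_fun_add h1 h2]
    rfl

theorem mixedDeriv_rescale {U : Field} (hU : ContDiff ℝ ∞ U) (a b : ℝ) (ds : List (Fin 4)) :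
    mixedDeriv ds (fun p => a • U (a * p.1 + b, p.2)) =
      fun p => (a * a ^ (ds.count 0)) • mixedDeriv ds U (a * p.1 + b, p.2) := by
  induction ds with
  | nil => simp [mixedDeriv]
  | cons d ds ih =>
    funext p
    rw [mixedDeriv_cons, ih]
    have h1 := (mixedDeriv_contDiff hU ds).differentiable (by simp) (a * p.1 + b, p.2)
    have hA : HasFDerivAt (fun p : ℝ × (Fin 3 → ℝ) => ((a * p.1 + b, p.2) : ℝ × (Fin 3 → ℝ)))
        ((a • ContinuousLinearMap.fst ℝ ℝ (Fin 3 → ℝ)).prod (ContinuousLinearMap.snd ℝ ℝ (Fin 3 → ℝ))) p := by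
      apply HasFDerivAt.prodMk
      · exact (hasFDerivAt_fst.const_mul a).add_const b
      · exact hasFDerivAt_snd
    have h2 := (h1.hasFDerivAt.comp p hA).const_smul (a * a ^ (ds.count 0))
    simp only [Function.comp_def] at h2
    have h3 := h2.fderiv
    rw [show (fun p : ℝ × (Fin 3 → ℝ) => (a * a ^ (ds.count 0)) • mixedDeriv ds U (a * p.1 + b, p.2)) = 
      (a * a ^ (ds.count 0)) • (fun p : ℝ × (Fin 3 → ℝ) => mixedDeriv ds U (a * p.1 + b, p.2)) from rfl, h3]
    refine Fin.cases ?_ (fun k => ?_) d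
    · rw [List.count_cons_self, pow_succ]
      simp only [smul_apply, ContinuousLinearMap.comp_apply, mixedDeriv_cons]
      have : ((a • ContinuousLinearMap.fst ℝ ℝ (Fin 3 → ℝ)).prod
        (ContinuousLinearMap.snd ℝ ℝ (Fin 3 → ℝ))) (direction 0) = a • direction 0 := by
        rw [direction_zero]; ext <;> simp
      rw [this, map_smul, smul_smul]
      ring_nf
    · rw [List.count_cons_of_ne (Fin.succ_ne_zero k)]
      simp only [smul_apply, ContinuousLinearMap.comp_apply, mixedDeriv_cons]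
      have : ((a • ContinuousLinearMap.fst ℝ ℝ (Fin 3 → ℝ)).prod
        (ContinuousLinearMap.snd ℝ ℝ (Fin 3 → ℝ))) (direction k.succ) = direction k.succ := by
        rw [direction_succ]; ext <;> simp
      rw [this]

/-! ### Effectiveness -/

theorem computable_finPi {α σ : Type*} [Primcodable α] [Primcodable σ] {n : ℕ} {f : Fin n → α → σ}
    (hf : ∀ i, Computable (f i)) : Computable (fun a => (fun i => f i a : Fin n → σ)) := by
  refine ((Primrec.vector_get' (α := σ) (n := n)).to_comp.comp (Computable.vector_ofFn hf)).of_eq ?_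
  intro a
  funext i
  simp

theorem computable_proj {α σ : Type*} [Primcodable α] [Primcodable σ] {n : ℕ} {f : α → Fin n → σ}
    (hf : Computable f) (i : Fin n) : Computable (fun a => f a i) :=
  (Computable.fin_app (σ := σ) (n := n)).comp hf (Computable.const i)

theorem effective_of {U : Field}
    (h : ∀ j, CompFam (fun a : List (Fin 4) × (ℚ × (Fin 3 → ℚ)) =>
      mixedDeriv a.1 U ((a.2.1 : ℝ), ratPoint a.2.2) j))
    (hb : ∃ B : List (Fin 4) → ℕ, Computable B ∧ ∀ ds p j, |mixedDeriv ds U p j| ≤ (B ds : ℝ)) :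
    Effective U := by
  choose E hE hE' using h
  obtain ⟨B, hB, hB'⟩ := hb
  refine ⟨fun x => fun j => E j (x.1, x.2.1) x.2.2, B, ?_, hB, ?_, hB'⟩
  · apply computable_finPi (f := fun j (x : List (Fin 4) × (ℚ × (Fin 3 → ℚ)) × ℕ) => E j (x.1, x.2.1) x.2.2)
    intro j
    have h1 : Computable (fun x : List (Fin 4) × (ℚ × (Fin 3 → ℚ)) × ℕ => (x.1, x.2.1)) :=
      Computable.fst.pair (Computable.fst.comp Computable.snd)
    exact (hE j).comp h1 (Computable.snd.comp Computable.snd)
  · intro ds t q n j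
    exact hE' j (ds, (t, q)) n

theorem effective_compFam {U : Field} (h : Effective U) (j : Fin 3) :
    CompFam (fun a : List (Fin 4) × (ℚ × (Fin 3 → ℚ)) =>
      mixedDeriv a.1 U ((a.2.1 : ℝ), ratPoint a.2.2) j) := by
  obtain ⟨E, B, hE, hB, h1, h2⟩ := h
  refine ⟨fun a n => E (a.1, a.2, n) j, ?_, ?_⟩
  · have h3 : Computable (fun x : (List (Fin 4) × (ℚ × (Fin 3 → ℚ))) × ℕ => (x.1.1, x.1.2, x.2)) :=
      (Computable.fst.comp Computable.fst).pair ((Computable.snd.comp Computable.fst).pair Computable.snd)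
    exact computable_proj (hE.comp h3) j
  · intro a n
    exact h1 a.1 a.2.1 a.2.2 n j

theorem effective_bound {U : Field} (h : Effective U) :
    ∃ B : List (Fin 4) → ℕ, Computable B ∧ ∀ ds p j, |mixedDeriv ds U p j| ≤ (B ds : ℝ) := by
  obtain ⟨E, B, hE, hB, h1, h2⟩ := h
  exact ⟨B, hB, h2⟩

theorem computable_count {α : Type*} [Primcodable α] [DecidableEq α] (i : α) :
    Computable (fun l : List α => l.count i) := by
  have h1 : PrimrecPred (fun a : α => a = i) := Primrec.eq.comp Primrec.id (Primrec.const i)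
  have h2 := Primrec.list_length.comp (Primrec.listFilter h1)
  refine (h2.to_comp).of_eq ?_
  intro l
  rw [List.count_eq_length_filter]
  congr 1
  
theorem computable_natMul : Computable₂ (fun a b : ℕ => a * b) := Primrec.nat_mul.to_comp

theorem compFam_zero {α : Type*} [Primcodable α] : CompFam (fun _ : α => (0 : ℝ)) := by
  have := CompFam.of_rat (α := α) (Computable.const (0 : ℚ))
  simpa using this

theorem effective_TF {k : Fin 3} {g : Fin 4 → ℝ → ℝ} (hg : ∀ i, Eff1 (g i)) : Effective (TF k g) := by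
  have hs : ∀ i, ContDiff ℝ ∞ (g i) := fun i => (hg i).smooth
  have hcomp : ∀ i, CompFam (fun a : ℕ × ℚ => iteratedDeriv a.1 (g i) (a.2 : ℝ)) := fun i => (hg i).comp
  choose B hBc hB using fun i => (hg i).bdd
  apply effective_of
  · intro j
    simp only [mixedDeriv_TF hs, TF]
    by_cases hj : j = k
    · subst hj
      simp only [Pi.single_eq_same, T]
      have c0 : Computable (fun a : List (Fin 4) × (ℚ × (Fin 3 → ℚ)) => (a.1.count 0, a.2.1)) :=
        ((computable_count 0).comp Computable.fst).pair (Computable.fst.comp Computable.snd)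
      have ck : ∀ l : Fin 3, Computable
          (fun a : List (Fin 4) × (ℚ × (Fin 3 → ℚ)) => (a.1.count l.succ, a.2.2 l)) := fun l =>
        ((computable_count l.succ).comp Computable.fst).pair
          (computable_proj (Computable.snd.comp Computable.snd) l)
      have m0 := (hcomp 0).comp c0
      have mk := fun l : Fin 3 => (hcomp l.succ).comp (ck l)
      refine (m0.mul (((mk 0).mul (mk 1)).mul (mk 2))).congr ?_
      intro a
      rw [Fin.prod_univ_three]
      rfl
    · simp only [Pi.single_eq_of_ne hj]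
      exact compFam_zero
  · refine ⟨fun ds => B 0 (ds.count 0) * ((B 1 (ds.count 1) * B 2 (ds.count 2)) * B 3 (ds.count 3)), ?_, ?_⟩
    · have c : ∀ i, Computable (fun ds : List (Fin 4) => B i (ds.count i)) := fun i =>
        (hBc i).comp (computable_count i)
      exact computable_natMul.comp (c 0)
        (computable_natMul.comp (computable_natMul.comp (c 1) (c 2)) (c 3))
    · intro ds p j
      rw [mixedDeriv_TF hs]
      have hb := fun i x => hB i (ds.count i) x
      have : |T (fun i => iteratedDeriv (ds.count i) (g i)) p| ≤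
          ((B 0 (ds.count 0) * ((B 1 (ds.count 1) * B 2 (ds.count 2)) * B 3 (ds.count 3)) : ℕ) : ℝ) := by
        rw [T, Fin.prod_univ_three]
        push_cast
        rw [abs_mul, abs_mul, abs_mul]
        exact mul_le_mul (hb 0 _) (mul_le_mul (mul_le_mul (hb 1 _) (hb 2 _) (abs_nonneg _) (by positivity))
          (hb 3 _) (abs_nonneg _) (by positivity)) (by positivity) (by positivity)
      by_cases hj : j = k
      · subst hj
        simpa [TF] using this
      · simp only [TF, Pi.single_eq_of_ne hj]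
        simp only [abs_zero]
        positivity

theorem effective_add {U V : Field} (hU : ContDiff ℝ ∞ U) (hV : ContDiff ℝ ∞ V) (eU : Effective U)
    (eV : Effective V) : Effective (fun p => U p + V p) := by
  obtain ⟨B, hBc, hB⟩ := effective_bound eU
  obtain ⟨C, hCc, hC⟩ := effective_bound eV
  apply effective_of
  · intro j
    simp only [mixedDeriv_add hU hV, Pi.add_apply]
    exact (effective_compFam eU j).add (effective_compFam eV j)
  · refine ⟨fun ds => B ds + C ds, ?_, ?_⟩
    · exact Primrec.nat_add.to_comp.comp hBc hCc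
    · intro ds p j
      rw [mixedDeriv_add hU hV]
      simp only [Pi.add_apply]
      push_cast
      exact (abs_add_le _ _).trans (add_le_add (hB _ _ _) (hC _ _ _))

theorem effective_rescale {U : Field} (hU : ContDiff ℝ ∞ U) (eU : Effective U) (a b : ℚ) :
    Effective (fun p => (a : ℝ) • U ((a : ℝ) * p.1 + b, p.2)) := by
  obtain ⟨B, hBc, hB⟩ := effective_bound eU
  have hcount := computable_count (0 : Fin 4)
  apply effective_of
  · intro j
    simp only [mixedDeriv_rescale hU]
    have h1 : Computable (fun x : List (Fin 4) × (ℚ × (Fin 3 → ℚ)) => a * a ^ (x.1.count 0)) := by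
      have := (Lib.RatPrimrec.rat_pow.to_comp).comp (Computable.const a)
        (hcount.comp (Computable.fst (α := List (Fin 4)) (β := ℚ × (Fin 3 → ℚ))))
      exact (Lib.RatPrimrec.rat_mul.to_comp).comp (Computable.const a) this
    have h2 : Computable (fun x : List (Fin 4) × (ℚ × (Fin 3 → ℚ)) => (x.1, (a * x.2.1 + b, x.2.2))) := by
      refine Computable.fst.pair (Computable.pair ?_ (Computable.snd.comp Computable.snd))
      refine (Lib.RatPrimrec.rat_add.to_comp).comp ?_ (Computable.const b)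
      exact (Lib.RatPrimrec.rat_mul.to_comp).comp (Computable.const a) (Computable.fst.comp Computable.snd)
    refine ((CompFam.of_rat h1).mul ((effective_compFam eU j).comp h2)).congr ?_
    intro x
    simp
  · refine ⟨fun ds => (a.num.natAbs * a.num.natAbs ^ (ds.count 0)) * B ds, ?_, ?_⟩
    · have hpow : Computable (fun ds : List (Fin 4) => a.num.natAbs ^ (ds.count 0)) := by
        have h0 : Primrec₂ (fun (x y : ℕ) => x ^ y) := Primrec₂.unpaired'.1 Nat.Primrec.pow
        exact h0.to_comp.comp (Computable.const _) hcount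
      exact computable_natMul.comp (computable_natMul.comp (Computable.const _) hpow) hBc
    · intro ds p j
      rw [mixedDeriv_rescale hU]
      simp only [Pi.smul_apply, smul_eq_mul]
      have ha : |(a : ℝ)| ≤ (a.num.natAbs : ℝ) := by
        have h1 : |a| ≤ (a.num.natAbs : ℚ) := by
          conv_lhs => rw [← Rat.num_div_den a]
          rw [abs_div, Nat.cast_natAbs, Int.cast_abs]
          apply div_le_self (abs_nonneg _)
          rw [Nat.abs_cast]
          exact_mod_cast a.den_pos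
        exact_mod_cast h1
      rw [abs_mul, abs_mul, abs_pow]
      push_cast
      gcongr
      exact hB _ _ _

theorem mixedDeriv_zero (ds : List (Fin 4)) : mixedDeriv ds (fun _ => 0) = fun _ => 0 := by
  induction ds with
  | nil => rfl
  | cons d ds ih =>
    funext p
    rw [mixedDeriv_cons, ih]
    simp

theorem effective_zero : Effective (fun _ => 0) := by
  apply effective_of
  · intro j
    simp only [mixedDeriv_zero, Pi.zero_apply]
    exact compFam_zero
  · refine ⟨fun _ => 0, Computable.const 0, ?_⟩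
    intro ds p j
    simp [mixedDeriv_zero]

end Crest.Agent.R126
private theorem rz_66546d6f99 : type_of% @_root_.Crest.AnalysisR.BoxFlow.mixedDeriv.eq_def := @_root_.Crest.AnalysisR.BoxFlow.mixedDeriv.eq_def
private theorem rz_91cc66df15 : type_of% @_root_.Crest.AnalysisR.BoxFlow.mixedDeriv.eq_1 := @_root_.Crest.AnalysisR.BoxFlow.mixedDeriv.eq_1
end

-- ▼ part R126/Flow
section

set_option autoImplicit false
open scoped ContDiff
open Crest.AnalysisR.BoxFlow

namespace Crest.Agent.R126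

open Set Metric Filter Topology

/-- A compactly supported smooth field is globally Lipschitz in space, uniformly in time. -/
theorem exists_lipschitz {U : Field} (hU : ContDiff ℝ ∞ U) (hc : HasCompactSupport U) :
    ∃ K : NNReal, ∀ t : ℝ, LipschitzWith K (fun x => U (t, x)) := by
  obtain ⟨K, hK⟩ := ContDiff.lipschitzWith_of_hasCompactSupport hc hU (by simp)
  refine ⟨K, fun t => LipschitzWith.of_dist_le_mul fun x y => ?_⟩
  have := hK.dist_le_mul (t, x) (t, y)
  rwa [Prod.dist_eq, dist_self, max_eq_right dist_nonneg] at this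

/-- A compactly supported continuous field is bounded. -/
theorem exists_bound {U : Field} (hU : ContDiff ℝ ∞ U) (hc : HasCompactSupport U) :
    ∃ L : NNReal, ∀ p, ‖U p‖ ≤ L := by
  obtain ⟨C, hC⟩ := hc.exists_bound_of_continuous hU.continuous
  exact ⟨⟨max C 0, le_max_right _ _⟩, fun p => (hC p).trans (le_max_left _ _)⟩

/-- A compactly supported field vanishes for large times. -/
theorem exists_time_bound {U : Field} (hc : HasCompactSupport U) :
    ∃ T : ℝ, 0 < T ∧ ∀ t x, T ≤ |t| → U (t, x) = 0 := by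
  obtain ⟨R, hR⟩ := hc.isCompact.isBounded.subset_closedBall 0
  refine ⟨max R 0 + 1, by positivity, fun t x ht => ?_⟩
  by_contra hne
  have hmem : (t, x) ∈ tsupport U := subset_tsupport _ hne
  have h1 := hR hmem
  rw [mem_closedBall, dist_zero_right] at h1
  have h2 : |t| ≤ ‖(t, x)‖ := by
    exact norm_fst_le (t, x)
  have h3 : R ≤ max R 0 := le_max_left _ _
  linarith

/-- If the field vanishes on a convex time set, the curve is constant there. -/
theorem const_of_zero {γ : ℝ → (Fin 3 → ℝ)} {s : Set ℝ} (hs : Convex ℝ s) {U : Field}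
    (hγ : ∀ t ∈ s, HasDerivWithinAt γ (U (t, γ t)) s t) (h0 : ∀ t ∈ s, ∀ x, U (t, x) = 0)
    {a b : ℝ} (ha : a ∈ s) (hb : b ∈ s) : γ a = γ b := by
  have := Convex.norm_image_sub_le_of_norm_hasDerivWithin_le (C := 0) hγ
    (fun t ht => by rw [h0 t ht]; simp) hs hb ha
  rw [zero_mul] at this
  exact sub_eq_zero.1 (norm_le_zero_iff.1 this)

/-- Picard-Lindelöf, global: a smooth compactly supported field has a flow. -/
theorem exists_flow {U : Field} (hU : ContDiff ℝ ∞ U) (hc : HasCompactSupport U) :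
    ∃ Φ : ℝ → (Fin 3 → ℝ) → (Fin 3 → ℝ), IsFlow U Φ := by
  obtain ⟨K, hK⟩ := exists_lipschitz hU hc
  obtain ⟨L, hL⟩ := exists_bound hU hc
  obtain ⟨T, hT, hT0⟩ := exists_time_bound hc
  have key : ∀ x : Fin 3 → ℝ, ∃ γ : ℝ → (Fin 3 → ℝ), γ 0 = x ∧
      ∀ t, HasDerivAt γ (U (t, γ t)) t := by
    intro x
    have h0 : (0 : ℝ) ∈ Icc (-(T + 2)) (T + 2) := ⟨by linarith, by linarith⟩
    have hPL : IsPicardLindelof (fun t y => U (t, y)) (tmin := -(T + 2)) (tmax := T + 2)
        ⟨0, h0⟩ x (L * ⟨T + 2, by linarith⟩) 0 L K := by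
      refine ⟨fun t _ => (hK t).lipschitzOnWith, fun y _ => ?_, fun t _ y _ => hL _, ?_⟩
      · exact (hU.continuous.comp (continuous_id.prodMk continuous_const)).continuousOn
      · simp only [sub_zero, zero_sub, neg_neg, max_self, sub_neg_eq_add, zero_add, NNReal.coe_mul,
          NNReal.coe_zero]
        exact le_rfl
    obtain ⟨α, hα0, hα⟩ := hPL.exists_eq_forall_mem_Icc_hasDerivWithinAt₀
    have hαd : ∀ t ∈ Ioo (-(T + 2)) (T + 2), HasDerivAt α (U (t, α t)) t := fun t ht =>
      (hα t (Ioo_subset_Icc_self ht)).hasDerivAt (Icc_mem_nhds ht.1 ht.2)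
    have hr : ∀ t ∈ Icc T (T + 2), α t = α (T + 1) := fun t ht =>
      const_of_zero (convex_Icc T (T + 2)) (U := U)
        (fun s hs => (hα s ⟨by linarith [hs.1], hs.2⟩).mono
          (Icc_subset_Icc (by linarith) le_rfl))
        (fun s hs y => hT0 s y (hs.1.trans (le_abs_self s))) ht ⟨by linarith, by linarith⟩
    have hl : ∀ t ∈ Icc (-(T + 2)) (-T), α t = α (-(T + 1)) := fun t ht =>
      const_of_zero (convex_Icc (-(T + 2)) (-T)) (U := U)
        (fun s hs => (hα s ⟨hs.1, by linarith [hs.2]⟩).mono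
          (Icc_subset_Icc le_rfl (by linarith)))
        (fun s hs y => hT0 s y (by linarith [hs.2, neg_le_abs s])) ht ⟨by linarith, by linarith⟩
    refine ⟨fun t => α (max (-(T + 1)) (min t (T + 1))), ?_, fun t => ?_⟩
    · have : max (-(T + 1)) (min 0 (T + 1)) = (0 : ℝ) := by
        rw [min_eq_left (by linarith), max_eq_right (by linarith)]
      show α (max (-(T + 1)) (min 0 (T + 1))) = x
      rw [this]; exact hα0
    · rcases lt_or_ge t (-T) with ht | ht
      · have hev : (fun t => α (max (-(T + 1)) (min t (T + 1)))) =ᶠ[𝓝 t] fun _ => α (-(T + 1)) := by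
          filter_upwards [Iio_mem_nhds ht] with s hs
          have hs' : s < -T := hs
          rw [min_eq_left (by linarith)]
          exact hl _ ⟨by have := le_max_left (-(T + 1)) s; linarith,
            max_le (by linarith) hs'.le⟩
        have hz : U (t, α (max (-(T + 1)) (min t (T + 1)))) = 0 :=
          hT0 _ _ (by linarith [neg_le_abs t])
        rw [hz]
        exact (hasDerivAt_const t (α (-(T + 1)))).congr_of_eventuallyEq hev
      · rcases le_or_gt t T with ht' | ht'
        · have hev : (fun t => α (max (-(T + 1)) (min t (T + 1)))) =ᶠ[𝓝 t] α := by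
            filter_upwards [Ioo_mem_nhds (show -(T + 1) < t by linarith)
              (show t < T + 1 by linarith)] with s hs
            rw [min_eq_left hs.2.le, max_eq_right hs.1.le]
          have e : max (-(T + 1)) (min t (T + 1)) = t := by
            rw [min_eq_left (by linarith), max_eq_right (by linarith)]
          simp only [e]
          exact (hαd t ⟨by linarith, by linarith⟩).congr_of_eventuallyEq hev
        · have hev : (fun t => α (max (-(T + 1)) (min t (T + 1)))) =ᶠ[𝓝 t] fun _ => α (T + 1) := by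
            filter_upwards [Ioi_mem_nhds ht'] with s hs
            have hs' : T < s := hs
            have h1 : T ≤ min s (T + 1) := le_min hs'.le (by linarith)
            rw [max_eq_right (by linarith)]
            exact hr _ ⟨h1, by have := min_le_right s (T + 1); linarith⟩
          have hz : U (t, α (max (-(T + 1)) (min t (T + 1)))) = 0 :=
            hT0 _ _ (by linarith [le_abs_self t])
          rw [hz]
          exact (hasDerivAt_const t (α (T + 1))).congr_of_eventuallyEq hev
  choose γ hγ0 hγ using key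
  exact ⟨fun t x => γ x t, fun x => hγ0 x, fun t x => hγ x t⟩

/-- Uniqueness. -/
theorem IsFlow_eq {U : Field} (hU : ContDiff ℝ ∞ U) (hc : HasCompactSupport U)
    {Φ : ℝ → (Fin 3 → ℝ) → (Fin 3 → ℝ)} (hΦ : IsFlow U Φ) {γ : ℝ → (Fin 3 → ℝ)}
    (hγ : ∀ t, HasDerivAt γ (U (t, γ t)) t) (t : ℝ) : Φ t (γ 0) = γ t := by
  obtain ⟨K, hK⟩ := exists_lipschitz hU hc
  have := ODE_solution_unique_univ (v := fun t x => U (t, x)) (s := fun _ => univ) (K := K)
    (f := fun s => Φ s (γ 0)) (g := γ) (t₀ := 0)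
    (fun t => (hK t).lipschitzOnWith) (fun t => ⟨hΦ.2 t (γ 0), trivial⟩)
    (fun t => ⟨hγ t, trivial⟩) (hΦ.1 (γ 0))
  exact congrFun this t

/-- Points that stay outside the spatial support do not move. -/
theorem IsFlow_const {U : Field} (hU : ContDiff ℝ ∞ U) (hc : HasCompactSupport U)
    {Φ : ℝ → (Fin 3 → ℝ) → (Fin 3 → ℝ)} (hΦ : IsFlow U Φ) {x : Fin 3 → ℝ} (hx : ∀ t, U (t, x) = 0) (t : ℝ) :
    Φ t x = x := by
  exact IsFlow_eq hU hc hΦ (γ := fun _ => x)
    (fun t => by rw [hx t]; exact hasDerivAt_const t x) t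

/-- Vanishing off `[1/4,3/4]` extends to the closure of the complement. -/
theorem zero_of_le {U : Field}
    (h : ∀ p : ℝ × (Fin 3 → ℝ), p.1 ∉ Set.Icc (1 / 4 : ℝ) (3 / 4) → U p = 0)
    (c : ContDiff ℝ ∞ U) {t : ℝ} (ht : t ≤ 1 / 4) (x : Fin 3 → ℝ) : U (t, x) = 0 := by
  rcases ht.lt_or_eq with ht | rfl
  · exact h _ fun h' => absurd h'.1 (not_le.2 ht)
  · have hcont : Continuous fun s : ℝ => U (s, x) :=
      c.continuous.comp (continuous_id.prodMk continuous_const)
    have hlim : Tendsto (fun s : ℝ => U (s, x)) (𝓝[<] (1 / 4)) (𝓝 (U (1 / 4, x))) :=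
      hcont.continuousAt.tendsto.mono_left nhdsWithin_le_nhds
    have hz : Tendsto (fun s : ℝ => U (s, x)) (𝓝[<] (1 / 4)) (𝓝 0) := by
      refine tendsto_const_nhds.congr' ?_
      filter_upwards [self_mem_nhdsWithin] with s hs
      exact (h (s, x) fun h' => absurd h'.1 (not_le.2 hs)).symm
    exact tendsto_nhds_unique hlim hz

theorem zero_of_ge {U : Field}
    (h : ∀ p : ℝ × (Fin 3 → ℝ), p.1 ∉ Set.Icc (1 / 4 : ℝ) (3 / 4) → U p = 0)
    (c : ContDiff ℝ ∞ U) {t : ℝ} (ht : 3 / 4 ≤ t) (x : Fin 3 → ℝ) : U (t, x) = 0 := by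
  rcases ht.lt_or_eq with ht | rfl
  · exact h _ fun h' => absurd h'.2 (not_le.2 ht)
  · have hcont : Continuous fun s : ℝ => U (s, x) :=
      c.continuous.comp (continuous_id.prodMk continuous_const)
    have hlim : Tendsto (fun s : ℝ => U (s, x)) (𝓝[>] (3 / 4)) (𝓝 (U (3 / 4, x))) :=
      hcont.continuousAt.tendsto.mono_left nhdsWithin_le_nhds
    have hz : Tendsto (fun s : ℝ => U (s, x)) (𝓝[>] (3 / 4)) (𝓝 0) := by
      refine tendsto_const_nhds.congr' ?_
      filter_upwards [self_mem_nhdsWithin] with s hs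
      exact (h (s, x) fun h' => absurd h'.2 (not_le.2 hs)).symm
    exact tendsto_nhds_unique hlim hz

/-- Before time `1/4` nothing has moved. -/
theorem flow_le {U : Field}
    (h : ∀ p : ℝ × (Fin 3 → ℝ), p.1 ∉ Set.Icc (1 / 4 : ℝ) (3 / 4) → U p = 0)
    (c : ContDiff ℝ ∞ U) {Φ : ℝ → (Fin 3 → ℝ) → (Fin 3 → ℝ)} (f : IsFlow U Φ) {t : ℝ}
    (ht : t ≤ 1 / 4) (x : Fin 3 → ℝ) : Φ t x = x := by
  have := const_of_zero (γ := fun s => Φ s x) (convex_Iic (1 / 4 : ℝ)) (U := U)
    (fun s _ => (f.2 s x).hasDerivWithinAt) (fun s hs y => zero_of_le h c hs y)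
    (a := t) (b := 0) ht (by norm_num [mem_Iic])
  simpa [f.1 x] using this

/-- After time `3/4` nothing moves. -/
theorem flow_ge {U : Field}
    (h : ∀ p : ℝ × (Fin 3 → ℝ), p.1 ∉ Set.Icc (1 / 4 : ℝ) (3 / 4) → U p = 0)
    (c : ContDiff ℝ ∞ U) {Φ : ℝ → (Fin 3 → ℝ) → (Fin 3 → ℝ)} (f : IsFlow U Φ) {t : ℝ}
    (ht : 3 / 4 ≤ t) (x : Fin 3 → ℝ) : Φ t x = Φ 1 x :=
  const_of_zero (γ := fun s => Φ s x) (convex_Ici (3 / 4 : ℝ)) (U := U)
    (fun s _ => (f.2 s x).hasDerivWithinAt) (fun s hs y => zero_of_ge h c hs y)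
    (a := t) (b := 1) ht (by norm_num [mem_Ici])

/-- Concatenation in time. If `Φ₁`, `Φ₂` are flows of `U₁`, `U₂` (both vanishing off `[1/4,3/4]`),
the field running `U₁` on `[1/4,1/2]` and `U₂` on `[1/2,3/4]` has a flow with time-one map the composite. -/
theorem concat_flow {U₁ U₂ : Field}
    (h₁ : ∀ p : ℝ × (Fin 3 → ℝ), p.1 ∉ Set.Icc (1 / 4 : ℝ) (3 / 4) → U₁ p = 0)
    (h₂ : ∀ p : ℝ × (Fin 3 → ℝ), p.1 ∉ Set.Icc (1 / 4 : ℝ) (3 / 4) → U₂ p = 0)
    (c₁ : ContDiff ℝ ∞ U₁) (c₂ : ContDiff ℝ ∞ U₂) (k₁ : HasCompactSupport U₁) (k₂ : HasCompactSupport U₂)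
    {Φ₁ Φ₂ : ℝ → (Fin 3 → ℝ) → (Fin 3 → ℝ)} (f₁ : IsFlow U₁ Φ₁) (f₂ : IsFlow U₂ Φ₂) :
    ∃ Φ : ℝ → (Fin 3 → ℝ) → (Fin 3 → ℝ),
      IsFlow (fun p => (2 : ℝ) • U₁ (2 * p.1 + (-1 / 4), p.2) + (2 : ℝ) • U₂ (2 * p.1 + (-3 / 4), p.2)) Φ ∧
      ∀ x, Φ 1 x = Φ₂ 1 (Φ₁ 1 x) := by
  refine ⟨fun t x => Φ₂ (2 * t + (-3 / 4)) (Φ₁ (2 * t + (-1 / 4)) x), ⟨fun x => ?_, fun t x => ?_⟩,
    fun x => ?_⟩
  · show Φ₂ (2 * 0 + (-3 / 4)) (Φ₁ (2 * 0 + (-1 / 4)) x) = x
    rw [flow_le h₁ c₁ f₁ (by norm_num), flow_le h₂ c₂ f₂ (by norm_num)]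
  · -- the two halves
    have hL : ∀ s : ℝ, s ≤ 1 / 2 → Φ₂ (2 * s + (-3 / 4)) (Φ₁ (2 * s + (-1 / 4)) x)
        = Φ₁ (2 * s + (-1 / 4)) x := fun s hs => flow_le h₂ c₂ f₂ (by linarith) _
    have hR : ∀ s : ℝ, 1 / 2 ≤ s → Φ₂ (2 * s + (-3 / 4)) (Φ₁ (2 * s + (-1 / 4)) x)
        = Φ₂ (2 * s + (-3 / 4)) (Φ₁ 1 x) := fun s hs => by
      rw [flow_ge h₁ c₁ f₁ (show 3 / 4 ≤ 2 * s + (-1 / 4) by linarith)]
    have dL : HasDerivAt (fun s => Φ₁ (2 * s + (-1 / 4)) x)
        ((2 : ℝ) • U₁ (2 * t + (-1 / 4), Φ₁ (2 * t + (-1 / 4)) x)) t := by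
      have h1 : HasDerivAt (fun s : ℝ => 2 * s + (-1 / 4)) (2 : ℝ) t := by
        simpa using ((hasDerivAt_id t).const_mul (2 : ℝ)).add_const (-1 / 4 : ℝ)
      exact (f₁.2 (2 * t + (-1 / 4)) x).scomp t h1
    have dR : HasDerivAt (fun s => Φ₂ (2 * s + (-3 / 4)) (Φ₁ 1 x))
        ((2 : ℝ) • U₂ (2 * t + (-3 / 4), Φ₂ (2 * t + (-3 / 4)) (Φ₁ 1 x))) t := by
      have h1 : HasDerivAt (fun s : ℝ => 2 * s + (-3 / 4)) (2 : ℝ) t := by
        simpa using ((hasDerivAt_id t).const_mul (2 : ℝ)).add_const (-3 / 4 : ℝ)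
      exact (f₂.2 (2 * t + (-3 / 4)) (Φ₁ 1 x)).scomp t h1
    have wL : t ≤ 1 / 2 → HasDerivWithinAt
        (fun s => Φ₂ (2 * s + (-3 / 4)) (Φ₁ (2 * s + (-1 / 4)) x))
        ((2 : ℝ) • U₁ (2 * t + (-1 / 4), Φ₂ (2 * t + (-3 / 4)) (Φ₁ (2 * t + (-1 / 4)) x)) +
          (2 : ℝ) • U₂ (2 * t + (-3 / 4), Φ₂ (2 * t + (-3 / 4)) (Φ₁ (2 * t + (-1 / 4)) x)))
        (Iic (1 / 2)) t := by
      intro ht
      rw [zero_of_le h₂ c₂ (show 2 * t + (-3 / 4) ≤ 1 / 4 by linarith), smul_zero, add_zero, hL t ht]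
      exact dL.hasDerivWithinAt.congr (fun s hs => hL s hs) (hL t ht)
    have wR : 1 / 2 ≤ t → HasDerivWithinAt
        (fun s => Φ₂ (2 * s + (-3 / 4)) (Φ₁ (2 * s + (-1 / 4)) x))
        ((2 : ℝ) • U₁ (2 * t + (-1 / 4), Φ₂ (2 * t + (-3 / 4)) (Φ₁ (2 * t + (-1 / 4)) x)) +
          (2 : ℝ) • U₂ (2 * t + (-3 / 4), Φ₂ (2 * t + (-3 / 4)) (Φ₁ (2 * t + (-1 / 4)) x)))
        (Ici (1 / 2)) t := by
      intro ht
      rw [zero_of_ge h₁ c₁ (show 3 / 4 ≤ 2 * t + (-1 / 4) by linarith), smul_zero, zero_add, hR t ht]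
      exact dR.hasDerivWithinAt.congr (fun s hs => hR s hs) (hR t ht)
    rcases lt_trichotomy t (1 / 2) with ht | ht | ht
    · exact (wL ht.le).hasDerivAt (Iic_mem_nhds ht)
    · have := (wL ht.le).union (wR ht.ge)
      rwa [Iic_union_Ici, hasDerivWithinAt_univ] at this
    · exact (wR ht.le).hasDerivAt (Ici_mem_nhds ht)
  · show Φ₂ (2 * 1 + (-3 / 4)) (Φ₁ (2 * 1 + (-1 / 4)) x) = Φ₂ 1 (Φ₁ 1 x)
    rw [flow_ge h₁ c₁ f₁ (by norm_num), flow_ge h₂ c₂ f₂ (by norm_num)]

end Crest.Agent.R126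
end

-- ▼ part R126/Elem
section

set_option autoImplicit false
open scoped ContDiff Topology
open Crest.AnalysisR.BoxFlow

namespace Crest.Agent.R126

/-- time profile: derivative of `t ↦ stp (2 t - 1/2)`, times a constant. -/
noncomputable def prof (c : ℝ) (t : ℝ) : ℝ :=
  c * deriv (fun s => stp (((2 : ℚ) : ℝ) * s + ((-1 / 2 : ℚ) : ℝ))) t

/-- Elementary field with stream function `f j (x j) * f j' (x j') * f j'' (x j'')`, in the `(j,j')`-plane. -/
noncomputable def elemField (c : ℝ) (f : Fin 3 → ℝ → ℝ) (j j' : Fin 3) : Field := fun p =>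
  TF j (Fin.cons (prof c) (Function.update f j' (deriv (f j')))) p +
    TF j' (Fin.cons (prof (-c)) (Function.update f j (deriv (f j)))) p

theorem prof_eff {c : ℝ} (hc : CompReal c) : Eff1 (prof c) :=
  ((Eff1.stp.comp_affine 2 (-1 / 2)).deriv).const_mul hc

theorem CompReal.neg {c : ℝ} (hc : CompReal c) : CompReal (-c) := CompFam.neg hc

theorem hasDerivAt_sigma (t : ℝ) :
    HasDerivAt (fun s => stp (((2 : ℚ) : ℝ) * s + ((-1 / 2 : ℚ) : ℝ)))
      (deriv (fun s => stp (((2 : ℚ) : ℝ) * s + ((-1 / 2 : ℚ) : ℝ))) t) t := by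
  have h : ContDiff ℝ ∞ (fun s => stp (((2 : ℚ) : ℝ) * s + ((-1 / 2 : ℚ) : ℝ))) :=
    (Eff1.stp.comp_affine 2 (-1 / 2)).smooth
  exact (h.differentiable (by simp) t).hasDerivAt

theorem prof_eq_zero {c t : ℝ} (ht : t ∉ Set.Icc (1 / 4 : ℝ) (3 / 4)) : prof c t = 0 := by
  have : deriv (fun s => stp (((2 : ℚ) : ℝ) * s + ((-1 / 2 : ℚ) : ℝ))) t = 0 := by
    rw [Set.mem_Icc, not_and_or, not_le, not_le] at ht
    rcases ht with ht | ht
    · have h : (fun s => stp (((2 : ℚ) : ℝ) * s + ((-1 / 2 : ℚ) : ℝ))) =ᶠ[𝓝 t] fun _ => (0 : ℝ) := by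
        filter_upwards [Iio_mem_nhds ht] with s hs
        apply stp_of_nonpos
        have : s < 1 / 4 := hs
        push_cast
        linarith
      rw [h.deriv_eq]
      simp
    · have h : (fun s => stp (((2 : ℚ) : ℝ) * s + ((-1 / 2 : ℚ) : ℝ))) =ᶠ[𝓝 t] fun _ => (1 : ℝ) := by
        filter_upwards [Ioi_mem_nhds ht] with s hs
        apply stp_of_one_le
        have : 3 / 4 < s := hs
        push_cast
        linarith
      rw [h.deriv_eq]
      simp
  rw [prof, this, mul_zero]

theorem prof_neg (c t : ℝ) : prof (-c) t = - prof c t := by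
  simp [prof]

theorem elem_prod_eff {c : ℝ} (hc : CompReal c) {f : Fin 3 → ℝ → ℝ} (hf : ∀ i, Eff1 (f i)) (j : Fin 3) :
    ∀ i, Eff1 ((Fin.cons (prof c) (Function.update f j (deriv (f j))) : Fin 4 → ℝ → ℝ) i) := by
  intro i
  refine Fin.cases ?_ (fun k => ?_) i
  · simpa using prof_eff hc
  · rw [Fin.cons_succ]
    by_cases hk : k = j
    · subst hk
      simpa using (hf k).deriv
    · rw [Function.update_of_ne hk]
      exact hf k

theorem T_cons_eq_zero_of {c : ℝ} {f : Fin 3 → ℝ → ℝ} {j : Fin 3} {p : ℝ × (Fin 3 → ℝ)} {l : Fin 3}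
    (h0 : f l (p.2 l) = 0) (h1 : deriv (f l) (p.2 l) = 0) :
    T (Fin.cons (prof c) (Function.update f j (deriv (f j)))) p = 0 := by
  rw [T]
  apply mul_eq_zero_of_right
  apply Finset.prod_eq_zero (Finset.mem_univ l)
  rw [Fin.cons_succ]
  by_cases hk : l = j
  · subst hk
    simpa using h1
  · rw [Function.update_of_ne hk]
    exact h0

theorem elemField_eq_zero_of {c : ℝ} {f : Fin 3 → ℝ → ℝ} {j j' : Fin 3} {p : ℝ × (Fin 3 → ℝ)} {l : Fin 3}
    (h0 : f l (p.2 l) = 0) (h1 : deriv (f l) (p.2 l) = 0) : elemField c f j j' p = 0 := by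
  rw [elemField, TF, TF, T_cons_eq_zero_of h0 h1, T_cons_eq_zero_of h0 h1]
  simp

theorem elemField_time {c : ℝ} {f : Fin 3 → ℝ → ℝ} {j j' : Fin 3} (p : ℝ × (Fin 3 → ℝ))
    (hp : p.1 ∉ Set.Icc (1 / 4 : ℝ) (3 / 4)) : elemField c f j j' p = 0 := by
  rw [elemField, TF, TF, T, T]
  simp [prof_eq_zero hp]

theorem elemField_good {c : ℝ} (hc : CompReal c) {f : Fin 3 → ℝ → ℝ} (hf : ∀ i, Eff1 (f i))
    (hs : ∀ i, HasCompactSupport (f i)) {j j' : Fin 3} (hj : j ≠ j') : Good (elemField c f j j') := by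
  have e1 := elem_prod_eff hc hf j'
  have e2 := elem_prod_eff hc.neg hf j
  have s1 := fun i => (e1 i).smooth
  have s2 := fun i => (e2 i).smooth
  refine ⟨?_, ?_, ?_, elemField_time, ?_⟩
  · exact (TF_contDiff s1).add (TF_contDiff s2)
  · have hK : IsCompact (Set.Icc (1 / 4 : ℝ) (3 / 4) ×ˢ (Set.univ.pi fun l => tsupport (f l))) :=
      isCompact_Icc.prod (isCompact_univ_pi fun l => (hs l).isCompact)
    refine HasCompactSupport.intro hK ?_
    intro p hp
    rw [Set.mem_prod, not_and_or] at hp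
    rcases hp with hp | hp
    · exact elemField_time p hp
    · simp only [Set.mem_univ_pi, not_forall] at hp
      obtain ⟨l, hl⟩ := hp
      refine elemField_eq_zero_of (l := l) (image_eq_zero_of_notMem_tsupport hl) ?_
      exact image_eq_zero_of_notMem_tsupport (fun h => hl (tsupport_deriv_subset h))
  · exact effective_add (TF_contDiff s1) (TF_contDiff s2) (effective_TF e1) (effective_TF e2)
  · intro p
    have d1 := (TF_contDiff (k := j) s1).differentiable (by simp) p
    have d2 := (TF_contDiff (k := j') s2).differentiable (by simp) p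
    have h1 : fderiv ℝ (elemField c f j j') p = fderiv ℝ (TF j (Fin.cons (prof c) (Function.update f j' (deriv (f j'))))) p + fderiv ℝ (TF j' (Fin.cons (prof (-c)) (Function.update f j (deriv (f j))))) p := by
      unfold elemField
      exact fderiv_fun_add d1 d2
    rw [spaceDiv]
    simp only [← direction_succ, h1, add_apply, fderiv_TF s1, fderiv_TF s2, TF, Pi.add_apply]
    rw [Finset.sum_add_distrib, Finset.sum_eq_single j, Finset.sum_eq_single j']
    · simp only [Pi.single_eq_same, Fin.cons_succ, Function.update_of_ne hj, Function.update_of_ne hj.symm,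
        ← Fin.cons_update]
      rw [Function.update_comm hj]
      simp only [T, Fin.cons_zero, Fin.cons_succ, prof_neg]
      ring
    · intro l _ hl
      rw [Pi.single_eq_of_ne hl]
    · simp
    · intro l _ hl
      rw [Pi.single_eq_of_ne hl]
    · simp

/-! ### local form of the cutoffs -/

/-- `(x - c)` times the cutoff. -/
noncomputable def lcut (c h ε : ℚ) (x : ℝ) : ℝ := (((1 : ℚ) : ℝ) * x + ((-c : ℚ) : ℝ)) * cut c h ε x

theorem lcut_eff {c h ε : ℚ} (hh : 0 ≤ h) (hε : 0 < ε) : Eff1 (lcut c h ε) :=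
  (cut_eff c h ε).affine_mul (cut_compact hh hε) 1 (-c)

theorem lcut_compact {c h ε : ℚ} (hh : 0 ≤ h) (hε : 0 < ε) : HasCompactSupport (lcut c h ε) :=
  (cut_compact hh hε).mul_left

theorem mem_nhds_lt {c r : ℝ} {x : ℝ} (hx : |x - c| < r) : {y : ℝ | |y - c| < r} ∈ 𝓝 x :=
  (isOpen_lt (by fun_prop) continuous_const).mem_nhds hx

theorem mem_nhds_gt {c r : ℝ} {x : ℝ} (hx : r < |x - c|) : {y : ℝ | r < |y - c|} ∈ 𝓝 x :=
  (isOpen_lt continuous_const (by fun_prop)).mem_nhds hx

theorem cut_core {c h ε : ℚ} (hh : 0 ≤ h) (hε : 0 < ε) {x : ℝ} (hx : |x - c| < h + ε / 2) :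
    cut c h ε x = 1 ∧ deriv (cut c h ε) x = 0 := by
  refine ⟨cut_eq_one hh hε hx.le, ?_⟩
  have h : cut c h ε =ᶠ[𝓝 x] fun _ => (1 : ℝ) := by
    filter_upwards [mem_nhds_lt hx] with y hy
    exact cut_eq_one hh hε (le_of_lt hy)
  rw [h.deriv_eq]
  simp

theorem cut_out {c h ε : ℚ} (hh : 0 ≤ h) (hε : 0 < ε) {x : ℝ} (hx : (h : ℝ) + ε < |x - c|) :
    cut c h ε x = 0 ∧ deriv (cut c h ε) x = 0 := by
  refine ⟨cut_eq_zero hh hε hx.le, ?_⟩
  have h : cut c h ε =ᶠ[𝓝 x] fun _ => (0 : ℝ) := by
    filter_upwards [mem_nhds_gt hx] with y hy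
    exact cut_eq_zero hh hε (le_of_lt hy)
  rw [h.deriv_eq]
  simp

theorem lcut_core {c h ε : ℚ} (hh : 0 ≤ h) (hε : 0 < ε) {x : ℝ} (hx : |x - c| < h + ε / 2) :
    lcut c h ε x = x - c ∧ deriv (lcut c h ε) x = 1 := by
  have h : lcut c h ε =ᶠ[𝓝 x] fun y => y - (c : ℝ) := by
    filter_upwards [mem_nhds_lt hx] with y hy
    rw [lcut, cut_eq_one hh hε (le_of_lt hy)]
    push_cast
    ring
  refine ⟨h.eq_of_nhds, ?_⟩
  rw [h.deriv_eq]
  simp

theorem lcut_out {c h ε : ℚ} (hh : 0 ≤ h) (hε : 0 < ε) {x : ℝ} (hx : (h : ℝ) + ε < |x - c|) :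
    lcut c h ε x = 0 ∧ deriv (lcut c h ε) x = 0 := by
  have h : lcut c h ε =ᶠ[𝓝 x] fun _ => (0 : ℝ) := by
    filter_upwards [mem_nhds_gt hx] with y hy
    rw [lcut, cut_eq_zero hh hε (le_of_lt hy), mul_zero]
  refine ⟨h.eq_of_nhds, ?_⟩
  rw [h.deriv_eq]
  simp

/-- The family of one-variable factors: `lcut` for the indices in `s`, `cut` otherwise. -/
noncomputable def fac (s : Finset (Fin 3)) (A H : Fin 3 → ℚ) (ε : ℚ) (l : Fin 3) : ℝ → ℝ :=
  if l ∈ s then lcut (A l) (H l) ε else cut (A l) (H l) ε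

theorem fac_eff {s : Finset (Fin 3)} {A H : Fin 3 → ℚ} {ε : ℚ} (hH : ∀ l, 0 ≤ H l) (hε : 0 < ε) (l : Fin 3) :
    Eff1 (fac s A H ε l) := by
  unfold fac
  split_ifs
  · exact lcut_eff (hH l) hε
  · exact cut_eff _ _ _

theorem fac_compact {s : Finset (Fin 3)} {A H : Fin 3 → ℚ} {ε : ℚ} (hH : ∀ l, 0 ≤ H l) (hε : 0 < ε)
    (l : Fin 3) : HasCompactSupport (fac s A H ε l) := by
  unfold fac
  split_ifs
  · exact lcut_compact (hH l) hε
  · exact cut_compact (hH l) hε

theorem fac_out {s : Finset (Fin 3)} {A H : Fin 3 → ℚ} {ε : ℚ} (hH : ∀ l, 0 ≤ H l) (hε : 0 < ε)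
    {l : Fin 3} {x : ℝ} (hx : (H l : ℝ) + ε < |x - A l|) :
    fac s A H ε l x = 0 ∧ deriv (fac s A H ε l) x = 0 := by
  unfold fac
  split_ifs
  · exact lcut_out (hH l) hε hx
  · exact cut_out (hH l) hε hx

/-- Outside the support box nothing moves. -/
theorem fixed_outside {c : ℝ} (hc : CompReal c) {s : Finset (Fin 3)} {A H : Fin 3 → ℚ} {ε : ℚ}
    (hH : ∀ l, 0 ≤ H l) (hε : 0 < ε) {j j' : Fin 3} (hj : j ≠ j')
    {Φ : ℝ → (Fin 3 → ℝ) → (Fin 3 → ℝ)} (hΦ : IsFlow (elemField c (fac s A H ε) j j') Φ)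
    {x : Fin 3 → ℝ} (hx : x ∉ box A (fun l => H l + ε)) (t : ℝ) : Φ t x = x := by
  have hg := elemField_good hc (fac_eff (s := s) (A := A) hH hε) (fac_compact hH hε) hj
  apply IsFlow_const hg.smooth hg.compact hΦ
  intro t
  simp only [box, Set.mem_ofPred_eq, not_forall, not_le] at hx
  obtain ⟨l, hl⟩ := hx
  push_cast at hl
  have := fac_out (s := s) hH hε hl
  exact elemField_eq_zero_of (l := l) this.1 this.2

/-- Value of the field on the core, first product. -/
theorem T_cons_core {c : ℝ} {s : Finset (Fin 3)} {A H : Fin 3 → ℚ} {ε : ℚ} (hH : ∀ l, 0 ≤ H l) (hε : 0 < ε)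
    {t : ℝ} {x : Fin 3 → ℝ} (hx : ∀ l, |x l - A l| < H l + ε / 2) (j' : Fin 3) :
    T (Fin.cons (prof c) (Function.update (fac s A H ε) j' (deriv (fac s A H ε j')))) (t, x) =
      prof c t * (if j' ∈ s then 1 else 0) * ∏ l ∈ (s.erase j'), (x l - A l) := by
  rw [T, mul_assoc]
  simp only [Fin.cons_zero, Fin.cons_succ]
  congr 1
  rw [← Finset.mul_prod_erase Finset.univ _ (Finset.mem_univ j')]
  congr 1
  · rw [Function.update_self]
    unfold fac
    split_ifs
    · exact (lcut_core (hH _) hε (hx _)).2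
    · exact (cut_core (hH _) hε (hx _)).2
  · have : ∀ l ∈ Finset.univ.erase j', Function.update (fac s A H ε) j' (deriv (fac s A H ε j')) l (x l) =
        if l ∈ s then (x l - A l) else 1 := by
      intro l hl
      rw [Function.update_of_ne (Finset.ne_of_mem_erase hl)]
      unfold fac
      split_ifs
      · exact (lcut_core (hH _) hε (hx _)).1
      · exact (cut_core (hH _) hε (hx _)).1
    rw [Finset.prod_congr rfl this, Finset.prod_ite_mem]
    congr 1
    ext l
    simp

/-- time reparametrisation -/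
noncomputable def sig (t : ℝ) : ℝ := stp (((2 : ℚ) : ℝ) * t + ((-1 / 2 : ℚ) : ℝ))

theorem sig_zero : sig 0 = 0 := by
  unfold sig
  apply stp_of_nonpos
  norm_num

theorem sig_one : sig 1 = 1 := by
  unfold sig
  apply stp_of_one_le
  norm_num

theorem sig_nonneg (t : ℝ) : 0 ≤ sig t := stp_nonneg _
theorem sig_le_one (t : ℝ) : sig t ≤ 1 := stp_le_one _

theorem hasDerivAt_sig (c t : ℝ) : HasDerivAt (fun s => c * sig s) (prof c t) t :=
  (hasDerivAt_sigma t).const_mul c

/-- One translation move. -/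
theorem exists_translate (a h : Fin 3 → ℚ) (hh : ∀ l, 0 < h l) (j : Fin 3) (w ε : ℚ) (hε : 0 < ε) :
    ∃ (U : Field) (Φ : ℝ → (Fin 3 → ℝ) → (Fin 3 → ℝ)), Good U ∧ IsFlow U Φ ∧
      (∀ x, x ∉ box (Function.update a j (a j + w / 2)) (fun l => Function.update h j (h j + |w| / 2) l + ε) →
        Φ 1 x = x) ∧
      ∃ O : Set (Fin 3 → ℝ), IsOpen O ∧ box a h ⊆ O ∧ ∀ x ∈ O, Φ 1 x = Function.update x j (x j + w) := by
  obtain ⟨j', hj'⟩ : ∃ j' : Fin 3, j ≠ j' := by
    obtain ⟨j', h⟩ := exists_ne j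
    exact ⟨j', h.symm⟩
  set A : Fin 3 → ℚ := Function.update a j (a j + w / 2) with hA
  set H : Fin 3 → ℚ := Function.update h j (h j + |w| / 2) with hH
  have hH0 : ∀ l, 0 ≤ H l := by
    intro l
    by_cases hl : l = j
    · subst hl
      rw [hH, Function.update_self]
      have := hh l
      positivity
    · rw [hH, Function.update_of_ne hl]
      exact (hh l).le
  have hg := elemField_good (CompReal.rat w) (fac_eff (s := {j'}) (A := A) hH0 hε)
    (fac_compact hH0 hε) hj'
  obtain ⟨Φ, hΦ⟩ := exists_flow hg.smooth hg.compact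
  refine ⟨_, Φ, hg, hΦ, fun x hx => fixed_outside (CompReal.rat w) hH0 hε hj' hΦ hx 1, ?_⟩
  refine ⟨{x | ∀ l, |x l - a l| < h l + ε / 2}, ?_, ?_, ?_⟩
  · have : {x : Fin 3 → ℝ | ∀ l, |x l - a l| < h l + ε / 2} =
        ⋂ l, {x : Fin 3 → ℝ | |x l - a l| < h l + ε / 2} := by ext; simp
    rw [this]
    exact isOpen_iInter_of_finite fun l => isOpen_lt (by fun_prop) continuous_const
  · intro x hx l
    have h1 : |x l - a l| ≤ h l := hx l
    have h2 : (0 : ℝ) < ε := by exact_mod_cast hε
    linarith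
  · intro x hx
    have hε' : (0 : ℝ) < ε := by exact_mod_cast hε
    have hγ : ∀ t, HasDerivAt (fun t => Function.update x j (x j + w * sig t))
        (elemField w (fac {j'} A H ε) j j' (t, Function.update x j (x j + w * sig t))) t := by
      intro t
      have hcore : ∀ l, |(Function.update x j (x j + w * sig t)) l - A l| < H l + ε / 2 := by
        intro l
        by_cases hl : l = j
        · subst hl
          rw [Function.update_self, hA, hH, Function.update_self, Function.update_self]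
          push_cast
          have h1 := hx l
          have h2 : |(w : ℝ) * (sig t - 1 / 2)| ≤ |(w : ℝ)| * (1 / 2) := by
            rw [abs_mul]
            apply mul_le_mul_of_nonneg_left _ (abs_nonneg _)
            rw [abs_le]
            constructor <;> linarith [sig_nonneg t, sig_le_one t]
          have h3 : x l + w * sig t - (a l + w / 2) = (x l - a l) + w * (sig t - 1 / 2) := by ring
          rw [h3]
          calc |(x l - a l) + w * (sig t - 1 / 2)| ≤ |x l - a l| + |w * (sig t - 1 / 2)| := abs_add_le _ _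
            _ < h l + |(w : ℝ)| / 2 + ε / 2 := by linarith
        · rw [Function.update_of_ne hl, hA, hH, Function.update_of_ne hl, Function.update_of_ne hl]
          exact hx l
      have e1 := T_cons_core (c := (w : ℝ)) (t := t) (s := {j'}) hH0 hε hcore j'
      have e2 := T_cons_core (c := (-w : ℝ)) (t := t) (s := {j'}) hH0 hε hcore j
      rw [elemField, TF, TF, e1, e2]
      simp only [Finset.mem_singleton, if_true, hj', if_false, Finset.erase_singleton, Finset.prod_empty,
        mul_one, mul_zero, zero_mul, Pi.single_zero, add_zero]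
      rw [hasDerivAt_pi]
      intro l
      by_cases hl : l = j
      · subst hl
        simp only [Function.update_self, Pi.single_eq_same]
        exact (hasDerivAt_sig w t).const_add (x l)
      · simp only [Function.update_of_ne hl, Pi.single_eq_of_ne hl]
        exact hasDerivAt_const _ _
    have := IsFlow_eq hg.smooth hg.compact hΦ hγ 1
    simp only [sig_zero, sig_one, mul_zero, add_zero, mul_one, Function.update_eq_self] at this
    exact this

/-- One reshaping move. -/
theorem exists_reshape (a h : Fin 3 → ℚ) (hh : ∀ l, 0 < h l) (j j' : Fin 3) (hj : j ≠ j') (lam ρ ε : ℚ)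
    (hlam : 0 < lam) (hε : 0 < ε) (hρ : ∀ l, h l ≤ ρ) (hρ1 : lam * h j ≤ ρ) (hρ2 : h j' / lam ≤ ρ) :
    ∃ (U : Field) (Φ : ℝ → (Fin 3 → ℝ) → (Fin 3 → ℝ)), Good U ∧ IsFlow U Φ ∧
      (∀ x, x ∉ box a (fun _ => ρ + ε) → Φ 1 x = x) ∧
      ∃ O : Set (Fin 3 → ℝ), IsOpen O ∧ box a h ⊆ O ∧ ∀ x ∈ O, Φ 1 x =
        Function.update (Function.update x j ((a j : ℝ) + lam * (x j - a j))) j'
          ((a j' : ℝ) + (x j' - a j') / lam) := by
  have hρ0 : 0 ≤ ρ := (hh 0).le.trans (hρ 0)
  have hH0 : ∀ l : Fin 3, 0 ≤ (fun _ => ρ : Fin 3 → ℚ) l := fun _ => hρ0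
  have hcr := CompReal.log lam hlam
  have hg := elemField_good hcr (fac_eff (s := {j, j'}) (A := a) hH0 hε)
    (fac_compact hH0 hε) hj
  obtain ⟨Φ, hΦ⟩ := exists_flow hg.smooth hg.compact
  refine ⟨_, Φ, hg, hΦ, fun x hx => fixed_outside hcr hH0 hε hj hΦ hx 1, ?_⟩
  have hε' : (0 : ℝ) < ε := by exact_mod_cast hε
  have hlam' : (0 : ℝ) < lam := by exact_mod_cast hlam
  set c : ℝ := Real.log lam with hc
  -- exponential bounds
  have hexp1 : ∀ t, Real.exp (c * sig t) ≤ max 1 (lam : ℝ) := by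
    intro t
    rcases le_total 0 c with h0 | h0
    · apply le_max_of_le_right
      calc Real.exp (c * sig t) ≤ Real.exp (c * 1) :=
            Real.exp_le_exp.mpr (mul_le_mul_of_nonneg_left (sig_le_one t) h0)
        _ = lam := by rw [mul_one, hc, Real.exp_log hlam']
    · apply le_max_of_le_left
      rw [Real.exp_le_one_iff]
      exact mul_nonpos_of_nonpos_of_nonneg h0 (sig_nonneg t)
  have hexp2 : ∀ t, Real.exp (-c * sig t) ≤ max 1 (1 / (lam : ℝ)) := by
    intro t
    rcases le_total 0 c with h0 | h0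
    · apply le_max_of_le_left
      rw [Real.exp_le_one_iff]
      exact mul_nonpos_of_nonpos_of_nonneg (by linarith) (sig_nonneg t)
    · apply le_max_of_le_right
      calc Real.exp (-c * sig t) ≤ Real.exp (-c * 1) :=
            Real.exp_le_exp.mpr (mul_le_mul_of_nonneg_left (sig_le_one t) (by linarith))
        _ = 1 / lam := by rw [mul_one, Real.exp_neg, hc, Real.exp_log hlam', one_div]
  set M : ℝ := max (max 1 (lam : ℝ)) (max 1 (1 / (lam : ℝ))) with hM
  have hM1 : 1 ≤ M := le_max_of_le_left (le_max_left _ _)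
  have hM0 : 0 < M := by linarith
  set δ : ℝ := ε / 2 / M with hδ
  have hδ0 : 0 < δ := by positivity
  refine ⟨{x | ∀ l, |x l - a l| < h l + δ}, ?_, ?_, ?_⟩
  · have : {x : Fin 3 → ℝ | ∀ l, |x l - a l| < h l + δ} =
        ⋂ l, {x : Fin 3 → ℝ | |x l - a l| < h l + δ} := by ext; simp
    rw [this]
    exact isOpen_iInter_of_finite fun l => isOpen_lt (by fun_prop) continuous_const
  · intro x hx l
    have h1 : |x l - a l| ≤ h l := hx l
    linarith
  · intro x hx
    have hMδ : M * δ = ε / 2 := by rw [hδ]; field_simp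
    have key : ∀ (m y hl : ℝ), 0 ≤ m → m ≤ M → m * hl ≤ ρ → |y| < hl + δ → |m * y| < ρ + ε / 2 := by
      intro m y hl hm0 hmM hmh hy
      rw [abs_mul, abs_of_nonneg hm0]
      rcases hm0.eq_or_lt with h0 | h0
      · rw [← h0, zero_mul]
        have : (0 : ℝ) ≤ ρ := by exact_mod_cast hρ0
        linarith
      · calc m * |y| < m * (hl + δ) := mul_lt_mul_of_pos_left hy h0
          _ = m * hl + m * δ := by ring
          _ ≤ ρ + M * δ := add_le_add hmh (mul_le_mul_of_nonneg_right hmM hδ0.le)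
          _ = ρ + ε / 2 := by rw [hMδ]
    have hhj : (0 : ℝ) < h j := by exact_mod_cast hh j
    have hhj' : (0 : ℝ) < h j' := by exact_mod_cast hh j'
    have hρr : ∀ l, (h l : ℝ) ≤ ρ := fun l => by exact_mod_cast hρ l
    have b1 : ∀ t, Real.exp (c * sig t) * h j ≤ ρ := by
      intro t
      calc Real.exp (c * sig t) * h j ≤ max 1 (lam : ℝ) * h j :=
            mul_le_mul_of_nonneg_right (hexp1 t) hhj.le
        _ = max (1 * (h j : ℝ)) (lam * h j) := max_mul_of_nonneg _ _ hhj.le
        _ ≤ ρ := max_le (by rw [one_mul]; exact hρr j) (by exact_mod_cast hρ1)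
    have b2 : ∀ t, Real.exp (-c * sig t) * h j' ≤ ρ := by
      intro t
      calc Real.exp (-c * sig t) * h j' ≤ max 1 (1 / (lam : ℝ)) * h j' :=
            mul_le_mul_of_nonneg_right (hexp2 t) hhj'.le
        _ = max (1 * (h j' : ℝ)) (1 / lam * h j') := max_mul_of_nonneg _ _ hhj'.le
        _ ≤ ρ := max_le (by rw [one_mul]; exact hρr j') (by
            rw [one_div, inv_mul_eq_div]; exact_mod_cast hρ2)
    have hγ : ∀ t, HasDerivAt (fun t => Function.update
        (Function.update x j ((a j : ℝ) + Real.exp (c * sig t) * (x j - a j))) j'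
          ((a j' : ℝ) + Real.exp (-c * sig t) * (x j' - a j')))
        (elemField c (fac {j, j'} a (fun _ => ρ) ε) j j' (t, Function.update
        (Function.update x j ((a j : ℝ) + Real.exp (c * sig t) * (x j - a j))) j'
          ((a j' : ℝ) + Real.exp (-c * sig t) * (x j' - a j')))) t := by
      intro t
      have hcore : ∀ l, |(Function.update
        (Function.update x j ((a j : ℝ) + Real.exp (c * sig t) * (x j - a j))) j'
          ((a j' : ℝ) + Real.exp (-c * sig t) * (x j' - a j'))) l - a l| <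
            ((fun _ => ρ : Fin 3 → ℚ) l : ℝ) + ε / 2 := by
        intro l
        by_cases hl' : l = j'
        · subst hl'
          rw [Function.update_self, add_sub_cancel_left]
          exact key _ _ (h l) (Real.exp_pos _).le
            ((hexp2 t).trans (le_max_right _ _)) (b2 t) (hx l)
        · rw [Function.update_of_ne hl']
          by_cases hl : l = j
          · subst hl
            rw [Function.update_self, add_sub_cancel_left]
            exact key _ _ (h l) (Real.exp_pos _).le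
              ((hexp1 t).trans (le_max_left _ _)) (b1 t) (hx l)
          · rw [Function.update_of_ne hl]
            have := key 1 (x l - a l) (h l) zero_le_one hM1 (by rw [one_mul]; exact hρr l) (hx l)
            rwa [one_mul] at this
      have e1 := T_cons_core (c := c) (t := t) (s := {j, j'}) hH0 hε hcore j'
      have e2 := T_cons_core (c := -c) (t := t) (s := {j, j'}) hH0 hε hcore j
      have er1 : ({j, j'} : Finset (Fin 3)).erase j' = {j} := by
        ext l
        simp only [Finset.mem_erase, Finset.mem_insert, Finset.mem_singleton]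
        constructor
        · rintro ⟨h1, h2 | h2⟩
          · exact h2
          · exact absurd h2 h1
        · rintro rfl
          exact ⟨hj, Or.inl rfl⟩
      have er2 : ({j, j'} : Finset (Fin 3)).erase j = {j'} := by
        ext l
        simp only [Finset.mem_erase, Finset.mem_insert, Finset.mem_singleton]
        constructor
        · rintro ⟨h1, h2 | h2⟩
          · exact absurd h2 h1
          · exact h2
        · rintro rfl
          exact ⟨hj.symm, Or.inr rfl⟩
      rw [elemField, TF, TF, e1, e2, er1, er2]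
      simp only [Finset.mem_insert, Finset.mem_singleton, or_true, true_or, if_true, Finset.prod_singleton,
        mul_one, Function.update_of_ne hj, Function.update_self, add_sub_cancel_left]
      rw [hasDerivAt_pi]
      intro l
      by_cases hl' : l = j'
      · subst hl'
        simp only [Function.update_self, Pi.add_apply, Pi.single_eq_same, Pi.single_eq_of_ne hj.symm, zero_add]
        have h1 := ((hasDerivAt_sig (-c) t).exp.mul_const (x l - a l)).const_add (a l : ℝ)
        refine h1.congr_deriv ?_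
        ring
      · by_cases hl : l = j
        · subst hl
          simp only [Function.update_of_ne hl', Function.update_self, Pi.add_apply, Pi.single_eq_same,
            Pi.single_eq_of_ne hl', add_zero]
          have h1 := ((hasDerivAt_sig c t).exp.mul_const (x l - a l)).const_add (a l : ℝ)
          refine h1.congr_deriv ?_
          ring
        · simp only [Function.update_of_ne hl', Function.update_of_ne hl, Pi.add_apply, Pi.single_eq_of_ne hl,
            Pi.single_eq_of_ne hl', add_zero]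
          exact hasDerivAt_const _ _
    have := IsFlow_eq hg.smooth hg.compact hΦ hγ 1
    simp only [sig_zero, sig_one, mul_zero, Real.exp_zero, one_mul, mul_one, add_sub_cancel,
      Function.update_eq_self] at this
    rw [this, Real.exp_neg, hc, Real.exp_log hlam', inv_mul_eq_div]

end Crest.Agent.R126
end

-- ▼ part R126/Path
section

set_option autoImplicit false
open Crest.AnalysisR.BoxFlow

namespace Crest.Agent.R126

/-- Closure properties of a relation on configurations used in the path argument. -/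
structure MoveRel {n : ℕ} (R : Cfg n → Cfg n → Prop) : Prop where
  refl : ∀ c : Cfg n, c.Pos → R c c
  trans : ∀ c d e : Cfg n, c.Pos → d.Pos → e.Pos → R c d → R d e → R c e
  /-- translate box `i` by `w` in direction `j`; the `ε`-enlarged hull of the motion must be free. -/
  translate : ∀ (c : Cfg n) (i : Fin n) (j : Fin 3) (w ε : ℚ), c.Pos → 0 < ε →
    (∀ i', i' ≠ i → Disjoint
      (box (Function.update (c i).1 j ((c i).1 j + w / 2))
        (fun l => Function.update (c i).2 j ((c i).2 j + |w| / 2) l + ε))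
      (box (c i').1 (c i').2)) →
    R c (Function.update c i (Function.update (c i).1 j ((c i).1 j + w), (c i).2))
  /-- rescale box `i` by `lam` in direction `j` and `1/lam` in direction `j'`, inside a free cube. -/
  reshape : ∀ (c : Cfg n) (i : Fin n) (j j' : Fin 3) (lam ρ ε : ℚ), c.Pos → 0 < ε → j ≠ j' → 0 < lam →
    (∀ l, (c i).2 l ≤ ρ) → lam * (c i).2 j ≤ ρ → (c i).2 j' / lam ≤ ρ →
    (∀ i', i' ≠ i → Disjoint (box (c i).1 (fun _ => ρ + ε)) (box (c i').1 (c i').2)) →
    R c (Function.update c i ((c i).1,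
      Function.update (Function.update (c i).2 j (lam * (c i).2 j)) j' ((c i).2 j' / lam)))

/-- separation in some coordinate implies disjointness. -/
theorem disjoint_box_of_sep {a h a' h' : Fin 3 → ℚ} (j : Fin 3) (hj : h j + h' j < |a j - a' j|) :
    Disjoint (box a h) (box a' h') := by
  rw [Set.disjoint_left]
  intro x hx hx'
  have h1 := hx j
  have h2 := hx' j
  have h3 : (|(a j : ℝ) - (a' j : ℝ)|) ≤ (h j : ℝ) + (h' j : ℝ) := by
    have : (a j : ℝ) - (a' j : ℝ) = (x j - a' j) - (x j - a j) := by ring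
    rw [this]
    refine (abs_sub _ _).trans ?_
    linarith
  have h4 : ((h j + h' j : ℚ) : ℝ) < ((|a j - a' j| : ℚ) : ℝ) := by exact_mod_cast hj
  push_cast at h4
  linarith

/-- disjoint boxes are separated in some coordinate. -/
theorem sep_of_disjoint_box {a h a' h' : Fin 3 → ℚ} (hh : ∀ j, 0 ≤ h j) (hh' : ∀ j, 0 ≤ h' j)
    (hd : Disjoint (box a h) (box a' h')) : ∃ j, h j + h' j < |a j - a' j| := by
  by_contra hcon
  push Not at hcon
  rw [Set.disjoint_left] at hd
  refine hd (a := fun j => ((max (a j - h j) (a' j - h' j) : ℚ) : ℝ)) ?_ ?_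
  · intro j
    have h1 := hcon j
    rw [abs_le] at h1
    have h2 : |max (a j - h j) (a' j - h' j) - a j| ≤ h j := by
      rw [abs_le]
      constructor
      · have := le_max_left (a j - h j) (a' j - h' j); linarith
      · rw [sub_le_iff_le_add, max_le_iff]
        constructor
        · have := hh j; linarith
        · linarith [h1.1, h1.2]
    show |(((max (a j - h j) (a' j - h' j) : ℚ)) : ℝ) - ((a j : ℚ) : ℝ)| ≤ ((h j : ℚ) : ℝ)
    exact_mod_cast h2
  · intro j
    have h1 := hcon j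
    rw [abs_le] at h1
    have h2 : |max (a j - h j) (a' j - h' j) - a' j| ≤ h' j := by
      rw [abs_le]
      constructor
      · have := le_max_right (a j - h j) (a' j - h' j); linarith
      · rw [sub_le_iff_le_add, max_le_iff]
        constructor
        · linarith [h1.1, h1.2]
        · have := hh' j; linarith
    show |(((max (a j - h j) (a' j - h' j) : ℚ)) : ℝ) - ((a' j : ℚ) : ℝ)| ≤ ((h' j : ℚ) : ℝ)
    exact_mod_cast h2

/-- uniform `ε`. -/
theorem exists_eps {n : ℕ} (P : Fin n → ℚ → Prop) (hP : ∀ i, ∃ δ : ℚ, 0 < δ ∧ ∀ ε, 0 < ε → ε ≤ δ → P i ε) :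
    ∃ ε : ℚ, 0 < ε ∧ ∀ i, P i ε := by
  choose δ hδ hP using hP
  by_cases hn : Nonempty (Fin n)
  · obtain ⟨i0, -, hi0⟩ := Finset.exists_min_image (Finset.univ : Finset (Fin n)) δ
      ⟨hn.some, Finset.mem_univ _⟩
    exact ⟨δ i0, hδ i0, fun i => hP i _ (hδ i0) (hi0 i (Finset.mem_univ _))⟩
  · exact ⟨1, one_pos, fun i => (hn ⟨i⟩).elim⟩

/-- A convenient form of the translation move. -/
theorem MoveRel.translate' {n : ℕ} {R : Cfg n → Cfg n → Prop} (hR : MoveRel R) (c : Cfg n) (hc : c.Pos)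
    (i : Fin n) (j : Fin 3) (b : ℚ)
    (hsep : ∀ i', i' ≠ i →
      (∃ l, l ≠ j ∧ (c i).2 l + (c i').2 l < |(c i).1 l - (c i').1 l|) ∨
      ((c i).2 j + |b - (c i).1 j| / 2 + (c i').2 j < |((c i).1 j + b) / 2 - (c i').1 j|)) :
    R c (Function.update c i (Function.update (c i).1 j b, (c i).2)) := by
  have key : ∃ ε : ℚ, 0 < ε ∧ ∀ i', i' ≠ i → Disjoint
      (box (Function.update (c i).1 j ((c i).1 j + (b - (c i).1 j) / 2))
        (fun l => Function.update (c i).2 j ((c i).2 j + |b - (c i).1 j| / 2) l + ε))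
      (box (c i').1 (c i').2) := by
    refine exists_eps _ ?_
    intro i'
    by_cases hi : i' = i
    · exact ⟨1, one_pos, fun ε _ _ h => absurd hi h⟩
    rcases hsep i' hi with ⟨l, hlj, hl⟩ | hl
    · refine ⟨(|(c i).1 l - (c i').1 l| - ((c i).2 l + (c i').2 l)) / 2, by linarith, ?_⟩
      intro ε hε0 hε _
      refine disjoint_box_of_sep l ?_
      simp only [Function.update_of_ne hlj]
      linarith
    · refine ⟨(|((c i).1 j + b) / 2 - (c i').1 j| - ((c i).2 j + |b - (c i).1 j| / 2 + (c i').2 j)) / 2,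
        by linarith, ?_⟩
      intro ε hε0 hε _
      refine disjoint_box_of_sep j ?_
      simp only [Function.update_self]
      have : (c i).1 j + (b - (c i).1 j) / 2 = ((c i).1 j + b) / 2 := by ring
      rw [this]
      linarith
  obtain ⟨ε, hε, h⟩ := key
  have := hR.translate c i j (b - (c i).1 j) ε hc hε h
  simpa using this

/-- The reversed relation satisfies the same closure properties. -/
theorem MoveRel.reverse {n : ℕ} {R : Cfg n → Cfg n → Prop} (hR : MoveRel R) :
    MoveRel (fun c d => R d c) where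
  refl := hR.refl
  trans := fun c d e hc hd he h1 h2 => hR.trans e d c he hd hc h2 h1
  translate := by
    intro c i j w ε hc hε h
    set c' : Cfg n := Function.update c i (Function.update (c i).1 j ((c i).1 j + w), (c i).2) with hc'
    have hci : c' i = (Function.update (c i).1 j ((c i).1 j + w), (c i).2) := by simp [hc']
    have hci' : ∀ i', i' ≠ i → c' i' = c i' := fun i' hi => by simp [hc', Function.update_of_ne hi]
    have hpos : c'.Pos := by
      intro i' l
      by_cases hi : i' = i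
      · subst hi; rw [hci]; exact hc _ _
      · rw [hci' _ hi]; exact hc _ _
    have := hR.translate c' i j (-w) ε hpos hε (by
      intro i' hi
      rw [hci, hci' _ hi]
      simp only [Function.update_self, Function.update_idem, abs_neg]
      have e1 : (c i).1 j + w + -w / 2 = (c i).1 j + w / 2 := by ring
      rw [e1]
      exact h i' hi)
    have e2 : Function.update c' i (Function.update (c' i).1 j ((c' i).1 j + -w), (c' i).2) = c := by
      funext i'
      by_cases hi : i' = i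
      · subst hi
        rw [Function.update_self, hci]
        simp
      · rw [Function.update_of_ne hi, hci' _ hi]
    rw [e2] at this
    exact this
  reshape := by
    intro c i j j' lam ρ ε hc hε hjj hlam h1 h2 h3 h
    set c' : Cfg n := Function.update c i ((c i).1,
      Function.update (Function.update (c i).2 j (lam * (c i).2 j)) j' ((c i).2 j' / lam)) with hc'
    have hci : c' i = ((c i).1,
      Function.update (Function.update (c i).2 j (lam * (c i).2 j)) j' ((c i).2 j' / lam)) := by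
      simp [hc']
    have hci' : ∀ i', i' ≠ i → c' i' = c i' := fun i' hi => by simp [hc', Function.update_of_ne hi]
    have hval : ∀ l, (c' i).2 l = if l = j' then (c i).2 j' / lam else if l = j then lam * (c i).2 j
        else (c i).2 l := by
      intro l
      rw [hci]
      simp only [Function.update_apply]
    have hpos : c'.Pos := by
      intro i' l
      by_cases hi : i' = i
      · subst hi
        rw [hval]
        split_ifs
        · exact div_pos (hc _ _) hlam
        · exact mul_pos hlam (hc _ _)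
        · exact hc _ _
      · rw [hci' _ hi]; exact hc _ _
    have hvj : (c' i).2 j = lam * (c i).2 j := by rw [hval]; simp [hjj]
    have hvj' : (c' i).2 j' = (c i).2 j' / lam := by rw [hval]; simp
    have hne : lam ≠ 0 := hlam.ne'
    have := hR.reshape c' i j j' lam⁻¹ ρ ε hpos hε hjj (inv_pos.2 hlam) (by
      intro l
      rw [hval]
      split_ifs
      · exact h3
      · exact h2
      · exact h1 l) (by
      rw [hvj]
      rw [inv_mul_cancel_left₀ hne]
      exact h1 j) (by
      rw [hvj', div_inv_eq_mul, div_mul_cancel₀ _ hne]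
      exact h1 j') (by
      intro i' hi
      rw [hci, hci' _ hi]
      exact h i' hi)
    have e2 : Function.update c' i ((c' i).1,
      Function.update (Function.update (c' i).2 j (lam⁻¹ * (c' i).2 j)) j' ((c' i).2 j' / lam⁻¹)) = c := by
      funext i'
      by_cases hi : i' = i
      · subst hi
        rw [Function.update_self, hvj, hvj', inv_mul_cancel_left₀ hne, div_inv_eq_mul,
          div_mul_cancel₀ _ hne]
        refine Prod.ext ?_ ?_
        · simp [hci]
        · funext l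
          simp only [Function.update_apply]
          rw [hval]
          split_ifs with h1 h2
          · rw [h1]
          · rw [h2]
          · rfl
      · rw [Function.update_of_ne hi, hci' _ hi]
    rw [e2] at this
    exact this

/-- Sequential moves: boxes are replaced one at a time, largest `σ`-rank first. -/
theorem MoveRel.seq {n : ℕ} {R : Cfg n → Cfg n → Prop} (hR : MoveRel R) (c d : Cfg n) (hc : c.Pos)
    (hd : d.Pos) (σ : Equiv.Perm (Fin n))
    (hstep : ∀ i : Fin n, R (fun i' => if σ i < σ i' then d i' else c i')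
      (Function.update (fun i' => if σ i < σ i' then d i' else c i') i (d i))) : R c d := by
  -- configuration after moving the boxes of rank `≥ m`
  let C : ℕ → Cfg n := fun m i' => if m ≤ (σ i' : ℕ) then d i' else c i'
  have hCpos : ∀ m, (C m).Pos := by
    intro m i' l
    by_cases h : m ≤ (σ i' : ℕ)
    · simp only [C, h, if_true]; exact hd _ _
    · simp only [C, h, if_false]; exact hc _ _
  have hCn : C n = c := by
    funext i'
    have : ¬ n ≤ (σ i' : ℕ) := by have := (σ i').2; omega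
    simp only [C, this, if_false]
  have hC0 : C 0 = d := by
    funext i'
    simp [C]
  have hsucc : ∀ m, m < n → R (C (m + 1)) (C m) := by
    intro m hm
    let i : Fin n := σ.symm ⟨m, hm⟩
    have hi : σ i = ⟨m, hm⟩ := by simp [i]
    have h1 := hstep i
    have e1 : (fun i' => if σ i < σ i' then d i' else c i') = C (m + 1) := by
      funext i'
      have : (σ i < σ i') ↔ m + 1 ≤ (σ i' : ℕ) := by
        rw [hi, Fin.lt_def]; exact Iff.rfl
      simp only [C, this]
    rw [e1] at h1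
    have e2 : Function.update (C (m + 1)) i (d i) = C m := by
      funext i'
      by_cases hi' : i' = i
      · subst hi'
        have : m ≤ (σ i : ℕ) := by rw [hi]
        simp only [Function.update_self, C, this, if_true]
      · rw [Function.update_of_ne hi']
        have hne : (σ i' : ℕ) ≠ m := by
          intro h
          apply hi'
          have : σ i' = ⟨m, hm⟩ := Fin.ext h
          rw [← σ.symm_apply_apply i', this]
        have : (m + 1 ≤ (σ i' : ℕ)) ↔ m ≤ (σ i' : ℕ) := by omega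
        simp only [C, this]
    rw [e2] at h1
    exact h1
  have hall : ∀ m, m ≤ n → R (C n) (C (n - m)) := by
    intro m
    induction m with
    | zero => intro _; simpa using hR.refl _ (hCpos n)
    | succ m ih =>
      intro hm
      have h1 := ih (by omega)
      have h2 := hsucc (n - (m + 1)) (by omega)
      have e : n - (m + 1) + 1 = n - m := by omega
      rw [e] at h2
      exact hR.trans _ _ _ (hCpos _) (hCpos _) (hCpos _) h1 h2
  have := hall n le_rfl
  rw [Nat.sub_self, hCn, hC0] at this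
  exact this

/-- Configuration with coordinate `j` of the centres replaced by `b`. -/
def Cfg.setC {n : ℕ} (c : Cfg n) (j : Fin 3) (b : Fin n → ℚ) : Cfg n :=
  fun i => (Function.update (c i).1 j (b i), (c i).2)

theorem Cfg.setC_pos {n : ℕ} {c : Cfg n} (hc : c.Pos) (j : Fin 3) (b : Fin n → ℚ) :
    (c.setC j b).Pos := fun i l => hc i l

/-- Moving coordinate `j` when everything is separated in another coordinate `l`. -/
theorem MoveRel.setC_of_sep {n : ℕ} {R : Cfg n → Cfg n → Prop} (hR : MoveRel R) (c : Cfg n) (hc : c.Pos)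
    (j l : Fin 3) (hlj : l ≠ j) (b : Fin n → ℚ)
    (hsep : ∀ i i', i' ≠ i → (c i).2 l + (c i').2 l < |(c i).1 l - (c i').1 l|) :
    R c (c.setC j b) := by
  refine hR.seq c (c.setC j b) hc (Cfg.setC_pos hc j b) (Equiv.refl _) ?_
  intro i
  set e : Cfg n := fun i' => if (Equiv.refl (Fin n)) i < (Equiv.refl (Fin n)) i' then c.setC j b i' else c i'
    with he
  have h1 : ∀ i', (e i').2 = (c i').2 := by
    intro i'; simp only [he]; split_ifs <;> rfl
  have h2 : ∀ i', (e i').1 l = (c i').1 l := by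
    intro i'; simp only [he]; split_ifs
    · simp [Cfg.setC, Function.update_of_ne hlj]
    · rfl
  have h3 : e i = c i := by simp [he]
  have hepos : e.Pos := fun i' l' => by rw [h1]; exact hc _ _
  have := hR.translate' e hepos i j (b i) (by
    intro i' hi
    left
    refine ⟨l, hlj, ?_⟩
    rw [h1, h1, h2, h2]
    exact hsep i i' hi)
  rw [h3] at this
  exact this

/-- Order preserving, distance non-decreasing move to the right in coordinate `j`. -/
theorem MoveRel.spread {n : ℕ} {R : Cfg n → Cfg n → Prop} (hR : MoveRel R) (c : Cfg n) (hc : c.Pos)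
    (hdisj : c.Disj) (j : Fin 3) (σ : Equiv.Perm (Fin n)) (b : Fin n → ℚ)
    (hσ : ∀ i i', σ i < σ i' → (c i).1 j ≤ (c i').1 j)
    (hb : ∀ i, (c i).1 j ≤ b i)
    (hbb : ∀ i i', σ i < σ i' → (c i').1 j - (c i).1 j ≤ b i' - b i) :
    R c (c.setC j b) := by
  refine hR.seq c (c.setC j b) hc (Cfg.setC_pos hc j b) σ ?_
  intro i
  set e : Cfg n := fun i' => if σ i < σ i' then c.setC j b i' else c i' with he
  have h1 : ∀ i', (e i').2 = (c i').2 := by
    intro i'; simp only [he]; split_ifs <;> rfl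
  have h2 : ∀ i' l, l ≠ j → (e i').1 l = (c i').1 l := by
    intro i' l hl; simp only [he]; split_ifs
    · simp [Cfg.setC, Function.update_of_ne hl]
    · rfl
  have h3 : e i = c i := by simp [he]
  have hepos : e.Pos := fun i' l' => by rw [h1]; exact hc _ _
  have := hR.translate' e hepos i j (b i) (by
    intro i' hi
    obtain ⟨l, hl⟩ := sep_of_disjoint_box (fun j => (hc i j).le) (fun j => (hc i' j).le)
      (hdisj (Ne.symm hi))
    by_cases hlj : l = j
    · right
      subst hlj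
      rw [h1, h1, h3]
      have hbi := hb i
      rw [abs_of_nonneg (sub_nonneg.2 hbi)]
      rcases lt_trichotomy (σ i) (σ i') with hlt | heq | hgt
      · have e1 : (e i').1 l = b i' := by simp [he, hlt, Cfg.setC]
        rw [e1]
        have h4 := hσ i i' hlt
        have h5 := hbb i i' hlt
        rw [abs_sub_comm, abs_of_nonneg (sub_nonneg.2 h4)] at hl
        rw [abs_sub_comm]
        refine lt_of_lt_of_le ?_ (le_abs_self _)
        linarith
      · exact absurd (σ.injective heq).symm hi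
      · have e1 : e i' = c i' := by simp [he, not_lt.2 hgt.le]
        rw [e1]
        have h4 := hσ i' i hgt
        rw [abs_of_nonneg (sub_nonneg.2 h4)] at hl
        refine lt_of_lt_of_le ?_ (le_abs_self _)
        linarith
    · left
      refine ⟨l, hlj, ?_⟩
      rw [h1, h1, h2 _ _ hlj, h2 _ _ hlj]
      exact hl)
  rw [h3] at this
  exact this

/-- Every configuration can be moved, in coordinate `0` only, so that all boxes are `L`-far apart. -/
theorem MoveRel.exists_spread {n : ℕ} {R : Cfg n → Cfg n → Prop} (hR : MoveRel R) (c : Cfg n) (hc : c.Pos)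
    (hdisj : c.Disj) (L : ℚ) (hL : 0 ≤ L) :
    ∃ b : Fin n → ℚ, (∀ i i', i' ≠ i → L ≤ |b i - b i'|) ∧ R c (c.setC 0 b) := by
  let f : Fin n → ℚ := fun i => (c i).1 0
  let σ : Equiv.Perm (Fin n) := (Tuple.sort f).symm
  have hmono : Monotone (f ∘ Tuple.sort f) := Tuple.monotone_sort f
  have hσ : ∀ i i', σ i < σ i' → f i ≤ f i' := by
    intro i i' h
    have := hmono h.le
    simpa [σ] using this
  let b : Fin n → ℚ := fun i => f i + L * (σ i : ℕ)
  have hbb : ∀ i i', σ i < σ i' → f i' - f i + L ≤ b i' - b i := by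
    intro i i' h
    have h1 : ((σ i : ℕ) : ℚ) + 1 ≤ ((σ i' : ℕ) : ℚ) := by
      exact_mod_cast (Nat.succ_le_of_lt (Fin.lt_def.1 h))
    have h2 : L * (((σ i : ℕ) : ℚ) + 1) ≤ L * ((σ i' : ℕ) : ℚ) := mul_le_mul_of_nonneg_left h1 hL
    simp only [b]
    linarith
  refine ⟨b, ?_, ?_⟩
  · intro i i' hi
    rcases lt_trichotomy (σ i) (σ i') with hlt | heq | hgt
    · have h1 := hbb i i' hlt
      have h2 := hσ i i' hlt
      rw [abs_sub_comm]
      refine le_trans ?_ (le_abs_self _)
      linarith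
    · exact absurd (σ.injective heq).symm hi
    · have h1 := hbb i' i hgt
      have h2 := hσ i' i hgt
      refine le_trans ?_ (le_abs_self _)
      linarith
  · refine hR.spread c hc hdisj 0 σ b (fun i i' h => hσ i i' h) ?_ ?_
    · intro i
      have : 0 ≤ L * ((σ i : ℕ) : ℚ) := mul_nonneg hL (Nat.cast_nonneg _)
      simp only [b, f]
      linarith
    · intro i i' h
      have h1 := hbb i i' h
      simp only [f] at h1
      linarith

/-- Reshaping one box to a new shape of the same volume. -/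
theorem MoveRel.reshapeOne {n : ℕ} {R : Cfg n → Cfg n → Prop} (hR : MoveRel R) (c : Cfg n) (hc : c.Pos)
    (i : Fin n) (k : Fin 3 → ℚ) (hk : ∀ j, 0 < k j) (hvol : ∏ j : Fin 3, k j / (c i).2 j = 1) (ρ : ℚ)
    (h1 : ∀ l, (c i).2 l ≤ ρ) (h2 : ∀ l, k l ≤ ρ) (h3 : (c i).2 2 * (c i).2 0 / k 0 ≤ ρ)
    (hsep : ∀ i', i' ≠ i → ρ + (c i').2 0 < |(c i).1 0 - (c i').1 0|) :
    R c (Function.update c i ((c i).1, k)) := by
  have hε : ∃ ε : ℚ, 0 < ε ∧ ∀ i', i' ≠ i → Disjoint (box (c i).1 (fun _ => ρ + ε))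
      (box (c i').1 (c i').2) := by
    refine exists_eps _ ?_
    intro i'
    by_cases hi : i' = i
    · exact ⟨1, one_pos, fun ε _ _ h => absurd hi h⟩
    have := hsep i' hi
    refine ⟨(|(c i).1 0 - (c i').1 0| - (ρ + (c i').2 0)) / 2, by linarith, ?_⟩
    intro ε hε0 hε _
    refine disjoint_box_of_sep 0 ?_
    linarith
  obtain ⟨ε, hε0, hε⟩ := hε
  have p0 := hc i 0
  have p1 := hc i 1
  have p2 := hc i 2
  have q0 := hk 0
  have q1 := hk 1
  have q2 := hk 2
  have hv : k 0 * k 1 * k 2 = (c i).2 0 * (c i).2 1 * (c i).2 2 := by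
    rw [Fin.prod_univ_three] at hvol
    field_simp at hvol
    linarith
  -- first move
  let c1 : Cfg n := Function.update c i ((c i).1,
    Function.update (Function.update (c i).2 0 (k 0 / (c i).2 0 * (c i).2 0)) 2
      ((c i).2 2 / (k 0 / (c i).2 0)))
  have m1 : R c c1 := by
    refine hR.reshape c i 0 2 (k 0 / (c i).2 0) ρ ε hc hε0 (by decide) (div_pos q0 p0) h1 ?_ ?_ hε
    · rw [div_mul_cancel₀ _ p0.ne']; exact h2 0
    · have : (c i).2 2 / (k 0 / (c i).2 0) = (c i).2 2 * (c i).2 0 / k 0 := by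
        field_simp
      rw [this]; exact h3
  have c1i : c1 i = ((c i).1, Function.update (Function.update (c i).2 0 (k 0)) 2
      ((c i).2 2 * (c i).2 0 / k 0)) := by
    simp only [c1, Function.update_self]
    have e1 : k 0 / (c i).2 0 * (c i).2 0 = k 0 := div_mul_cancel₀ _ p0.ne'
    have e2 : (c i).2 2 / (k 0 / (c i).2 0) = (c i).2 2 * (c i).2 0 / k 0 := by
      field_simp
    rw [e1, e2]
  have c1i' : ∀ i', i' ≠ i → c1 i' = c i' := fun i' hi => by simp [c1, Function.update_of_ne hi]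
  have v0 : (c1 i).2 0 = k 0 := by
    rw [c1i]; simp only; rw [Function.update_of_ne (by decide)]; simp
  have v1 : (c1 i).2 1 = (c i).2 1 := by
    rw [c1i]; simp only; rw [Function.update_of_ne (by decide), Function.update_of_ne (by decide)]
  have v2 : (c1 i).2 2 = (c i).2 2 * (c i).2 0 / k 0 := by
    rw [c1i]; simp
  have hc1 : c1.Pos := by
    intro i' l
    by_cases hi : i' = i
    · subst hi
      fin_cases l
      · change 0 < (c1 _).2 0; rw [v0]; exact q0
      · change 0 < (c1 _).2 1; rw [v1]; exact p1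
      · change 0 < (c1 _).2 2; rw [v2]; positivity
    · rw [c1i' _ hi]; exact hc _ _
  have m2 := hR.reshape c1 i 1 2 (k 1 / (c i).2 1) ρ ε hc1 hε0 (by decide) (div_pos q1 p1) (by
      intro l
      fin_cases l
      · change (c1 _).2 0 ≤ ρ; rw [v0]; exact h2 0
      · change (c1 _).2 1 ≤ ρ; rw [v1]; exact h1 1
      · change (c1 _).2 2 ≤ ρ; rw [v2]; exact h3) (by
      rw [v1, div_mul_cancel₀ _ p1.ne']; exact h2 1) (by
      rw [v2]
      have : (c i).2 2 * (c i).2 0 / k 0 / (k 1 / (c i).2 1) = k 2 := by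
        field_simp
        linarith
      rw [this]; exact h2 2) (by
      intro i' hi
      rw [c1i' _ hi, c1i]
      exact hε i' hi)
  have e3 : Function.update c1 i ((c1 i).1,
      Function.update (Function.update (c1 i).2 1 (k 1 / (c i).2 1 * (c1 i).2 1)) 2
        ((c1 i).2 2 / (k 1 / (c i).2 1))) = Function.update c i ((c i).1, k) := by
    funext i'
    by_cases hi : i' = i
    · subst hi
      rw [Function.update_self, Function.update_self]
      refine Prod.ext ?_ ?_
      · simp [c1i]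
      · funext l
        have e1 : k 1 / (c i').2 1 * (c1 i').2 1 = k 1 := by rw [v1, div_mul_cancel₀ _ p1.ne']
        have e2 : (c1 i').2 2 / (k 1 / (c i').2 1) = k 2 := by
          rw [v2]; field_simp; linarith
        simp only [e1, e2]
        fin_cases l
        · change Function.update (Function.update (c1 i').2 1 (k 1)) 2 (k 2) 0 = k 0
          rw [Function.update_of_ne (by decide), Function.update_of_ne (by decide), v0]
        · change Function.update (Function.update (c1 i').2 1 (k 1)) 2 (k 2) 1 = k 1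
          rw [Function.update_of_ne (by decide), Function.update_self]
        · change Function.update (Function.update (c1 i').2 1 (k 1)) 2 (k 2) 2 = k 2
          rw [Function.update_self]
    · rw [Function.update_of_ne hi, Function.update_of_ne hi, c1i' _ hi]
  rw [e3] at m2
  refine hR.trans _ _ _ hc hc1 ?_ m1 m2
  intro i' l
  by_cases hi : i' = i
  · subst hi; rw [Function.update_self]; exact hk l
  · rw [Function.update_of_ne hi]; exact hc _ _

/-- Reshaping all boxes when they are far apart in coordinate `0`. -/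
theorem MoveRel.reshapeAll {n : ℕ} {R : Cfg n → Cfg n → Prop} (hR : MoveRel R) (c : Cfg n) (hc : c.Pos)
    (k : Fin n → Fin 3 → ℚ) (hk : ∀ i j, 0 < k i j) (hvol : ∀ i, ∏ j : Fin 3, k i j / (c i).2 j = 1)
    (ρ : ℚ) (h1 : ∀ i l, (c i).2 l ≤ ρ) (h2 : ∀ i l, k i l ≤ ρ)
    (h3 : ∀ i, (c i).2 2 * (c i).2 0 / k i 0 ≤ ρ)
    (hsep : ∀ i i', i' ≠ i → 2 * ρ < |(c i).1 0 - (c i').1 0|) :
    R c (fun i => ((c i).1, k i)) := by
  refine hR.seq c _ hc (fun i j => hk i j) (Equiv.refl _) ?_
  intro i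
  set e : Cfg n := fun i' => if (Equiv.refl (Fin n)) i < (Equiv.refl (Fin n)) i' then ((c i').1, k i')
    else c i' with he
  have e1 : ∀ i', (e i').1 = (c i').1 := by
    intro i'; simp only [he]; split_ifs <;> rfl
  have e3 : e i = c i := by simp [he]
  have e2 : ∀ i' l, (e i').2 l ≤ ρ := by
    intro i' l; simp only [he]; split_ifs
    · exact h2 i' l
    · exact h1 i' l
  have hepos : e.Pos := by
    intro i' l; simp only [he]; split_ifs
    · exact hk i' l
    · exact hc i' l
  have := hR.reshapeOne e hepos i (k i) (hk i) (by rw [e3]; exact hvol i) ρ (e2 i) (h2 i)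
    (by rw [e3]; exact h3 i) (by
      intro i' hi
      rw [e1, e1]
      have := hsep i i' hi
      have := e2 i' 0
      linarith)
  rw [e3] at this
  exact this

/-- Main combinatorial theorem. -/
theorem path {n : ℕ} {R : Cfg n → Cfg n → Prop} (hR : MoveRel R) (c d : Cfg n) (hc : c.Pos) (hd : d.Pos)
    (hcd : c.Disj) (hdd : d.Disj) (hvol : ∀ i, ∏ j : Fin 3, (d i).2 j / (c i).2 j = 1) : R c d := by
  obtain ⟨ρ, hρ⟩ : ∃ ρ : ℚ, ∀ i, (∀ l, (c i).2 l ≤ ρ) ∧ (∀ l, (d i).2 l ≤ ρ) ∧
      (c i).2 2 * (c i).2 0 / (d i).2 0 ≤ ρ := by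
    let g : Fin n → ℚ := fun i => (∑ l, (c i).2 l) + (∑ l, (d i).2 l) +
      (c i).2 2 * (c i).2 0 / (d i).2 0
    have hg1 : ∀ i l, (c i).2 l ≤ ∑ l, (c i).2 l := fun i l =>
      Finset.single_le_sum (f := fun l => (c i).2 l) (fun l _ => (hc i l).le) (Finset.mem_univ l)
    have hg2 : ∀ i l, (d i).2 l ≤ ∑ l, (d i).2 l := fun i l =>
      Finset.single_le_sum (f := fun l => (d i).2 l) (fun l _ => (hd i l).le) (Finset.mem_univ l)
    have hg3 : ∀ i, 0 < (c i).2 2 * (c i).2 0 / (d i).2 0 := fun i =>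
      div_pos (mul_pos (hc i 2) (hc i 0)) (hd i 0)
    have hg4 : ∀ i, 0 ≤ ∑ l, (c i).2 l := fun i => Finset.sum_nonneg fun l _ => (hc i l).le
    have hg5 : ∀ i, 0 ≤ ∑ l, (d i).2 l := fun i => Finset.sum_nonneg fun l _ => (hd i l).le
    have hg0 : ∀ i, 0 ≤ g i := fun i => by
      have := hg3 i; have := hg4 i; have := hg5 i; simp only [g]; linarith
    refine ⟨∑ i, g i, fun i => ?_⟩
    have hle : g i ≤ ∑ i, g i := Finset.single_le_sum (fun i _ => hg0 i) (Finset.mem_univ i)
    have a3 := hg3 i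
    have a4 := hg4 i
    have a5 := hg5 i
    simp only [g] at hle
    refine ⟨fun l => ?_, fun l => ?_, ?_⟩
    · have := hg1 i l; linarith
    · have := hg2 i l; linarith
    · linarith
  by_cases hn : Nonempty (Fin n)
  swap
  · have : c = d := by
      funext i; exact (hn ⟨i⟩).elim
    rw [this]; exact hR.refl _ hd
  have hρ0 : 0 < ρ := lt_of_lt_of_le (hc hn.some 0) ((hρ _).1 0)
  obtain ⟨b, hb, m1⟩ := hR.exists_spread c hc hcd (2 * ρ + 1) (by linarith)
  obtain ⟨b', hb', m6⟩ := hR.reverse.exists_spread d hd hdd (2 * ρ + 1) (by linarith)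
  -- c1 : spread configuration with the old shapes
  have p1 : (c.setC 0 b).Pos := Cfg.setC_pos hc 0 b
  have m2 : R (c.setC 0 b) (fun i => ((c.setC 0 b i).1, (d i).2)) := by
    refine hR.reshapeAll _ p1 (fun i => (d i).2) hd hvol ρ (fun i => (hρ i).1) (fun i => (hρ i).2.1)
      (fun i => (hρ i).2.2) ?_
    intro i i' hi
    have := hb i i' hi
    simp only [Cfg.setC, Function.update_self]
    linarith
  set c2 : Cfg n := fun i => ((c.setC 0 b i).1, (d i).2) with hc2
  have p2 : c2.Pos := fun i j => hd i j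
  have m3 : R c2 (c2.setC 1 (fun i => (2 * ρ + 1) * (i : ℕ))) := by
    refine hR.setC_of_sep c2 p2 1 0 (by decide) _ ?_
    intro i i' hi
    have := hb i i' hi
    simp only [hc2, Cfg.setC, Function.update_self]
    have h1 := (hρ i).2.1 0
    have h2 := (hρ i').2.1 0
    linarith
  set c3 : Cfg n := c2.setC 1 (fun i => (2 * ρ + 1) * (i : ℕ)) with hc3
  have p3 : c3.Pos := Cfg.setC_pos p2 _ _
  have m4 : R c3 (c3.setC 0 b') := by
    refine hR.setC_of_sep c3 p3 0 1 (by decide) _ ?_
    intro i i' hi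
    simp only [hc3, Cfg.setC, Function.update_self]
    have h1 : (c2 i).2 1 ≤ ρ := (hρ i).2.1 1
    have h2 : (c2 i').2 1 ≤ ρ := (hρ i').2.1 1
    have h3 : (1 : ℚ) ≤ |((i : ℕ) : ℚ) - ((i' : ℕ) : ℚ)| := by
      have h4 : ((i : ℕ) : ℤ) ≠ ((i' : ℕ) : ℤ) := by
        intro h
        apply hi
        apply Fin.ext
        exact_mod_cast h.symm
      have h5 : (1 : ℤ) ≤ |((i : ℕ) : ℤ) - ((i' : ℕ) : ℤ)| := Int.one_le_abs (sub_ne_zero.2 h4)
      exact_mod_cast h5
    have h6 : |(2 * ρ + 1) * ((i : ℕ) : ℚ) - (2 * ρ + 1) * ((i' : ℕ) : ℚ)| =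
        (2 * ρ + 1) * |((i : ℕ) : ℚ) - ((i' : ℕ) : ℚ)| := by
      rw [← mul_sub, abs_mul, abs_of_pos (by linarith : (0 : ℚ) < 2 * ρ + 1)]
    rw [h6]
    have h7 : (2 * ρ + 1) * 1 ≤ (2 * ρ + 1) * |((i : ℕ) : ℚ) - ((i' : ℕ) : ℚ)| :=
      mul_le_mul_of_nonneg_left h3 (by linarith)
    linarith
  set c4 : Cfg n := c3.setC 0 b' with hc4
  have p4 : c4.Pos := Cfg.setC_pos p3 _ _
  have m5 : R c4 (c4.setC 1 (fun i => (d i).1 1)) := by
    refine hR.setC_of_sep c4 p4 1 0 (by decide) _ ?_
    intro i i' hi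
    have := hb' i i' hi
    simp only [hc4, Cfg.setC, Function.update_self]
    have h1 : (c3 i).2 0 ≤ ρ := (hρ i).2.1 0
    have h2 : (c3 i').2 0 ≤ ρ := (hρ i').2.1 0
    linarith
  set c5 : Cfg n := c4.setC 1 (fun i => (d i).1 1) with hc5
  have p5 : c5.Pos := Cfg.setC_pos p4 _ _
  have m5' : R c5 (c5.setC 2 (fun i => (d i).1 2)) := by
    refine hR.setC_of_sep c5 p5 2 0 (by decide) _ ?_
    intro i i' hi
    have := hb' i i' hi
    have e : ∀ i, (c5 i).1 0 = b' i := by
      intro i
      simp only [hc5, hc4, Cfg.setC]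
      rw [Function.update_of_ne (by decide), Function.update_self]
    rw [e, e]
    have h1 : (c5 i).2 0 ≤ ρ := (hρ i).2.1 0
    have h2 : (c5 i').2 0 ≤ ρ := (hρ i').2.1 0
    linarith
  have p6 : (c5.setC 2 (fun i => (d i).1 2)).Pos := Cfg.setC_pos p5 _ _
  have e6 : c5.setC 2 (fun i => (d i).1 2) = d.setC 0 b' := by
    funext i
    refine Prod.ext ?_ rfl
    funext l
    simp only [hc5, hc4, hc3, Cfg.setC]
    fin_cases l
    · simp
    · simp
    · simp
  rw [e6] at m5' p6
  exact hR.trans _ _ _ hc p1 hd m1 <| hR.trans _ _ _ p1 p2 hd m2 <| hR.trans _ _ _ p2 p3 hd m3 <|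
    hR.trans _ _ _ p3 p4 hd m4 <| hR.trans _ _ _ p4 p5 hd m5 <| hR.trans _ _ _ p5 p6 hd m5' m6

end Crest.Agent.R126
end

-- ▼ part R126/Main

set_option autoImplicit false
open scoped ContDiff
open Crest.AnalysisR.BoxFlow

namespace Crest.Agent.R126

theorem good_zero : Good (fun _ => 0) where
  smooth := contDiff_const
  compact := HasCompactSupport.zero
  eff := effective_zero
  time := fun _ _ => rfl
  div := fun p => by simp [spaceDiv]

theorem Realizes.refl {n : ℕ} (c : Cfg n) (hc : c.Pos) : Realizes c c := by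
  refine ⟨fun _ => 0, fun _ x => x, good_zero, ⟨fun x => rfl, fun t x => hasDerivAt_const t x⟩, fun i => ?_⟩
  refine ⟨Set.univ, isOpen_univ, Set.subset_univ _, fun x _ => ?_⟩
  funext j
  have h : (c i).2 j / (c i).2 j = 1 := div_self (hc i j).ne'
  rw [h]
  push_cast
  ring

theorem spaceDiv_add {U V : Field} (hU : ContDiff ℝ ∞ U) (hV : ContDiff ℝ ∞ V) (p : ℝ × (Fin 3 → ℝ)) :
    spaceDiv (fun p => U p + V p) p = spaceDiv U p + spaceDiv V p := by
  unfold spaceDiv
  rw [fderiv_fun_add (hU.differentiable (by simp) p) (hV.differentiable (by simp) p)]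
  simp [Finset.sum_add_distrib]

theorem spaceDiv_rescale {U : Field} (hU : ContDiff ℝ ∞ U) (a b : ℝ) (p : ℝ × (Fin 3 → ℝ)) :
    spaceDiv (fun p => a • U (a * p.1 + b, p.2)) p = a * spaceDiv U (a * p.1 + b, p.2) := by
  have h : ∀ j : Fin 3, fderiv ℝ (fun p : ℝ × (Fin 3 → ℝ) => a • U (a * p.1 + b, p.2)) p (0, Pi.single j 1) =
      a • fderiv ℝ U (a * p.1 + b, p.2) (0, Pi.single j 1) := by
    intro j
    have h1 := mixedDeriv_rescale hU a b [j.succ]
    have h2 := congrFun h1 p
    simpa [mixedDeriv, direction_succ] using h2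
  unfold spaceDiv
  simp only [h, Pi.smul_apply, smul_eq_mul, Finset.mul_sum]

theorem rescale_contDiff {U : Field} (hU : ContDiff ℝ ∞ U) (a b : ℝ) :
    ContDiff ℝ ∞ (fun p : ℝ × (Fin 3 → ℝ) => a • U (a * p.1 + b, p.2)) := by
  refine ContDiff.const_smul a (hU.comp (ContDiff.prodMk ?_ contDiff_snd))
  exact (contDiff_const.mul contDiff_fst).add contDiff_const

theorem rescale_compact {U : Field} (hc : HasCompactSupport U) {a b : ℝ} (ha : a ≠ 0) :
    HasCompactSupport (fun p : ℝ × (Fin 3 → ℝ) => a • U (a * p.1 + b, p.2)) := by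
  let e : ℝ × (Fin 3 → ℝ) ≃ₜ ℝ × (Fin 3 → ℝ) :=
    Homeomorph.prodCongr ((Homeomorph.mulLeft₀ a ha).trans (Homeomorph.addRight b)) (Homeomorph.refl _)
  have h1 : HasCompactSupport (U ∘ e) := hc.comp_homeomorph e
  have h2 : (fun p : ℝ × (Fin 3 → ℝ) => a • U (a * p.1 + b, p.2)) = (fun y : Fin 3 → ℝ => a • y) ∘ (U ∘ e) := by
    funext p
    rfl
  rw [h2]
  exact h1.comp_left (smul_zero a)

theorem Good.concat {U V : Field} (hU : Good U) (hV : Good V) :
    Good (fun p => (2 : ℝ) • U (2 * p.1 + (-1 / 4), p.2) + (2 : ℝ) • V (2 * p.1 + (-3 / 4), p.2)) := by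
  have cU := rescale_contDiff hU.smooth 2 (-1 / 4)
  have cV := rescale_contDiff hV.smooth 2 (-3 / 4)
  have eU := effective_rescale hU.smooth hU.eff 2 (-1 / 4)
  have eV := effective_rescale hV.smooth hV.eff 2 (-3 / 4)
  push_cast at eU eV
  refine ⟨cU.add cV, (rescale_compact hU.compact two_ne_zero).add (rescale_compact hV.compact two_ne_zero),
    effective_add cU cV eU eV, ?_, ?_⟩
  · intro p hp
    have h1 : U (2 * p.1 + (-1 / 4), p.2) = 0 := hU.time _ fun h => hp ⟨by linarith [h.1], by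
      have := h.2; dsimp only at this; linarith⟩
    have h2 : V (2 * p.1 + (-3 / 4), p.2) = 0 := hV.time _ fun h => hp ⟨by
      have := h.1; dsimp only at this; linarith, by have := h.2; dsimp only at this; linarith⟩
    simp [h1, h2]
  · intro p
    rw [spaceDiv_add cU cV, spaceDiv_rescale hU.smooth, spaceDiv_rescale hV.smooth, hU.div, hV.div]
    simp

theorem Realizes.trans {n : ℕ} (c d e : Cfg n) (hc : c.Pos) (hd : d.Pos) (he : e.Pos) (h₁ : Realizes c d)
    (h₂ : Realizes d e) : Realizes c e := by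
  obtain ⟨U₁, Φ₁, g₁, f₁, o₁⟩ := h₁
  obtain ⟨U₂, Φ₂, g₂, f₂, o₂⟩ := h₂
  obtain ⟨Φ, hΦ, hΦ1⟩ := concat_flow g₁.time g₂.time g₁.smooth g₂.smooth g₁.compact g₂.compact f₁ f₂
  refine ⟨_, Φ, g₁.concat g₂, hΦ, fun i => ?_⟩
  obtain ⟨O₁, hO₁, hb₁, hm₁⟩ := o₁ i
  obtain ⟨O₂, hO₂, hb₂, hm₂⟩ := o₂ i
  let M : (Fin 3 → ℝ) → (Fin 3 → ℝ) := fun x j => ((d i).1 j : ℝ) +
    (((d i).2 j / (c i).2 j : ℚ) : ℝ) * (x j - ((c i).1 j : ℝ))
  have hM : Continuous M := by
    refine continuous_pi fun j => ?_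
    exact continuous_const.add (continuous_const.mul ((continuous_apply j).sub continuous_const))
  refine ⟨O₁ ∩ M ⁻¹' O₂, hO₁.inter (hO₂.preimage hM), ?_, ?_⟩
  · intro x hx
    refine ⟨hb₁ hx, hb₂ ?_⟩
    intro j
    have h1 := hx j
    have hcj : (0 : ℝ) < ((c i).2 j : ℝ) := by exact_mod_cast hc i j
    have hdj : (0 : ℝ) < ((d i).2 j : ℝ) := by exact_mod_cast hd i j
    simp only [M, add_sub_cancel_left]
    push_cast
    rw [abs_mul, abs_of_pos (div_pos hdj hcj), div_mul_eq_mul_div, div_le_iff₀ hcj]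
    exact mul_le_mul_of_nonneg_left h1 hdj.le
  · intro x hx
    rw [hΦ1 x, hm₁ x hx.1, hm₂ _ hx.2]
    funext j
    have hcj : ((c i).2 j : ℝ) ≠ 0 := by exact_mod_cast (hc i j).ne'
    have hdj : ((d i).2 j : ℝ) ≠ 0 := by exact_mod_cast (hd i j).ne'
    simp only [M]
    push_cast
    field_simp
    ring

theorem box_isClosed (a h : Fin 3 → ℚ) : IsClosed (box a h) := by
  have : box a h = ⋂ j : Fin 3, {x : Fin 3 → ℝ | |x j - (a j : ℝ)| ≤ (h j : ℝ)} := by
    ext x; simp [box]
  rw [this]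
  exact isClosed_iInter fun j =>
    isClosed_le ((continuous_apply j).sub continuous_const).abs continuous_const

theorem moveRel_realizes (n : ℕ) : MoveRel (Realizes (n := n)) where
  refl := fun c hc => Realizes.refl c hc
  trans := fun c d e hc hd he h₁ h₂ => Realizes.trans c d e hc hd he h₁ h₂
  translate := by
    intro c i j w ε hc hε hfree
    obtain ⟨U, Φ, hU, hΦ, hout, O, hO, hbO, hOm⟩ := exists_translate (c i).1 (c i).2 (hc i) j w ε hε
    refine ⟨U, Φ, hU, hΦ, fun i' => ?_⟩
    by_cases hi : i' = i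
    · subst hi
      refine ⟨O, hO, hbO, fun x hx => ?_⟩
      rw [hOm x hx]
      funext l
      have hcl : (c i').2 l / (c i').2 l = 1 := div_self (hc i' l).ne'
      simp only [Function.update_self]
      rw [hcl]
      by_cases hl : l = j
      · subst hl
        simp only [Function.update_self]
        push_cast
        ring
      · simp only [Function.update_of_ne hl]
        push_cast
        ring
    · refine ⟨(box (Function.update (c i).1 j ((c i).1 j + w / 2))
        (fun l => Function.update (c i).2 j ((c i).2 j + |w| / 2) l + ε))ᶜ,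
        (box_isClosed _ _).isOpen_compl, ?_, fun x hx => ?_⟩
      · exact (Set.disjoint_left.mp (hfree i' hi).symm)
      · rw [hout x hx]
        funext l
        have hcl : (c i').2 l / (c i').2 l = 1 := div_self (hc i' l).ne'
        simp only [Function.update_of_ne hi]
        rw [hcl]
        push_cast
        ring
  reshape := by
    intro c i j j' lam ρ ε hc hε hj hlam hρ hρ1 hρ2 hfree
    obtain ⟨U, Φ, hU, hΦ, hout, O, hO, hbO, hOm⟩ := exists_reshape (c i).1 (c i).2 (hc i) j j' hj lam ρ ε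
      hlam hε hρ hρ1 hρ2
    refine ⟨U, Φ, hU, hΦ, fun i' => ?_⟩
    by_cases hi : i' = i
    · subst hi
      refine ⟨O, hO, hbO, fun x hx => ?_⟩
      rw [hOm x hx]
      funext l
      have hne : (c i').2 l ≠ 0 := (hc i' l).ne'
      have hlam' : lam ≠ 0 := hlam.ne'
      simp only [Function.update_self]
      by_cases hl' : l = j'
      · subst hl'
        simp only [Function.update_self]
        have : (c i').2 l / lam / (c i').2 l = 1 / lam := by field_simp
        rw [this]
        push_cast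
        ring
      · by_cases hl : l = j
        · subst hl
          simp only [Function.update_of_ne hl', Function.update_self]
          have : lam * (c i').2 l / (c i').2 l = lam := by field_simp
          rw [this]
        · simp only [Function.update_of_ne hl', Function.update_of_ne hl]
          rw [div_self hne]
          push_cast
          ring
    · refine ⟨(box (c i).1 (fun _ => ρ + ε))ᶜ, (box_isClosed _ _).isOpen_compl, ?_, fun x hx => ?_⟩
      · exact (Set.disjoint_left.mp (hfree i' hi).symm)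
      · rw [hout x hx]
        funext l
        have hcl : (c i').2 l / (c i').2 l = 1 := div_self (hc i' l).ne'
        simp only [Function.update_of_ne hi]
        rw [hcl]
        push_cast
        ring

theorem main (n : ℕ) (a b h k : Fin n → Fin 3 → ℚ)
    (hh : ∀ i j, 0 < h i j) (hk : ∀ i j, 0 < k i j)
    (ha : Pairwise fun i i' => Disjoint (box (a i) (h i)) (box (a i') (h i')))
    (hb : Pairwise fun i i' => Disjoint (box (b i) (k i)) (box (b i') (k i')))
    (hvol : ∀ i, ∏ j : Fin 3, k i j / h i j = 1) :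
    ∃ (U : Field) (Φ : ℝ → (Fin 3 → ℝ) → (Fin 3 → ℝ)),
      ContDiff ℝ ∞ U ∧ HasCompactSupport U ∧ Effective U ∧
      (∀ p : ℝ × (Fin 3 → ℝ), p.1 ∉ Set.Icc (1 / 4 : ℝ) (3 / 4) → U p = 0) ∧
      (∀ p : ℝ × (Fin 3 → ℝ), spaceDiv U p = 0) ∧ IsFlow U Φ ∧
      ∀ i : Fin n, ∃ O : Set (Fin 3 → ℝ), IsOpen O ∧ box (a i) (h i) ⊆ O ∧
        ∀ x ∈ O, Φ 1 x = fun j => (b i j : ℝ) + ((k i j / h i j : ℚ) : ℝ) * (x j - (a i j : ℝ)) := by
  obtain ⟨U, Φ, hU, hΦ, hO⟩ := path (moveRel_realizes n) (fun i => (a i, h i)) (fun i => (b i, k i))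
    hh hk ha hb hvol
  exact ⟨U, Φ, hU.smooth, hU.compact, hU.eff, hU.time, hU.div, hΦ, hO⟩

end Crest.Agent.R126
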